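import Crest.Agent.X212.Smt39.Tw
import Crest.Agent.X212.Msi61.Lf
import Crest.Agent.X212.Nk89.Dic

/-! # Row 212, MS-SMT (helper39): the twisted terms `q2` gain a derivative -/

set_option autoImplicit false
set_option linter.unusedSectionVars false
set_option maxSynthPendingDepth 3
noncomputable section
open scoped Manifold ContDiff Topology InnerProductSpace
open MeasureTheory Set Function Filter

namespace Crest.Agent.X212.Smt39
open An Sob92 Prm93 Wz78 Mod61 Nd18 Mon62 Mon62.Dm Gla92 Msi61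
open Nk89 (famZ endsZ hc)

variable {κ lam : Type} [Fintype κ] [Fintype lam] {Y : M.Mf 3} [CompactSpace Y.M]
  {D : YD Y.I Y.M κ lam} {δ : ℝ} {O' : Set (Y.M × ℝ)}

/-- the angle of the twist -/
theorem ro_ang {o : Ref (famZ ℝ D δ O')} {h : (famZ ℝ D δ O').OK} {r k : ℕ} {hk : 3 ≤ k}
    (y₀ : Pnt o r) : Ro (dm h hk y₀) fun _ v => ang v.2.2.2 := by
  have c : (famZ ℝ D δ O').F0.Cb fun z => hc 1 0 z.2 := Nk89.cb_hcZ (.inl rfl) 0
  obtain ⟨ζ, z1, z2, -, -, z3⟩ := Met55.exists_cut (I := Cyf70.IC Y.I)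
    ((isCompact_univ (X := Y.M)).prod (isCompact_Icc (a := (0 : ℝ)) (b := 1))) isOpen_univ
    (subset_univ _)
  refine ⟨us_dm ((SB.par contDiffOn_id).smul (SB.fixed c)), fun _ => ζ, fun _ z => hc 1 0 z.2,
    fun _ v => v.2.2.2, fun l hl => A0.of_cs hl (fun _ => z1) fun _ => z2, ub_of_finite fun _ => c,
    uc_dm (by fun_prop), fun _ v x hx => ?_⟩
  have e : x.2 < 0 ∨ 1 < x.2 := by
    by_contra n
    exact hx (z3 x ⟨trivial, not_lt.1 fun a => n (.inl a), not_lt.1 fun a => n (.inr a)⟩).self_of_nhds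
  rcases e with e | e
  · have a : ∀ s < (0 : ℝ), hc 1 0 s = 0 := fun s hs => Nk89.hc_zero (by linarith)
    refine ⟨?_, .inl (a _ e)⟩
    filter_upwards [continuous_snd.continuousAt.eventually_lt_const e] with z hz
    rw [ang, a _ hz, a _ e, mul_comm]
  · have a : ∀ s > (1 : ℝ), hc 1 0 s = 1 := fun s hs => Nk89.hc_one (by linarith)
    refine ⟨?_, .inr (a _ e)⟩
    filter_upwards [continuous_snd.continuousAt.eventually_const_lt e] with z hz
    rw [ang, a _ hz, a _ e, mul_comm]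

variable (N : ND Y.M lam) (D δ)

/-- **MS-SMT** -/
theorem smL : SmL N D δ := by
  intro h b o _ R l w
  have := h.ok.con.toPreconnectedSpace
  have H := hy_ends o (h.X b)
  have f := fx_Z (D := D) (O' := spO b univ) (T := ℝ) (O := univ) h.d0.le h.dN
  have hy := h.ok.nd.sy
  refine sm_of H.ok (fun y x => ?_) (fun y x => ?_) fun k hk hk7 y₀ => ?_
  · have p : ∀ t : Tm (Y.M × ℝ) lam 0 0, o.m.pm D.B x ((rot (ang y.t) y.cfg).tD D.B D.Z t x) =
        (rot (ang y.t) y.cfg).tD D.B D.Z t x := fun t => by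
      cases t with
      | lin u => exact pm_idem H.ok x _
      | anti d s u => exact pm_idem H.ok x _
      | _ => exact map_zero _
    have q : ∀ z v, o.m.pm D.B x v = v → o.m.pm D.B x (cs o.m.J z v) = cs o.m.J z v := fun z v e => by
      have : o.m.J (o.m.pm D.B x v) = o.m.pm D.B x (o.m.J v) :=
        congrArg (fun S : An.En (Fin o.m.N) => S v) (J_pm o.ok x)
      rw [cs, map_add, map_smul, map_smul, ← this, e]
    exact q _ _ ((map_neg _ _).trans (congrArg _ ((map_smul _ _ _).trans (congrArg _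
      ((map_smul _ _ _).trans (congrArg _ (p _)))))))
  · have p : ∀ t : Tm (Y.M × ℝ) lam 0 0, o.m.p2 D.B x ((rot (ang y.t) y.cfg).tC D.B D.Z t x) =
        (rot (ang y.t) y.cfg).tC D.B D.Z t x := fun t => by
      cases t with
      | ad g g' ξ => exact Std94.p2_p2 H.ok.B x _
      | adj d s g g' u v l => exact Std94.p2_p2 H.ok.B x _
      | adn f g g' φ L => exact Std94.p2_p2 H.ok.B x _
      | _ => exact map_zero _
    exact (map_neg _ _).trans (congrArg _ ((map_smul _ _ _).trans (congrArg _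
      ((map_smul _ _ _).trans (congrArg _ (p _))))))
  have c := H.cfOK hk7 (hk := hk) y₀
  have a := f.nh H.ok (hk := hk) (y₀ := y₀) c.h4
  have d := f.dot H hk7 (hk := hk) y₀ (stat_ends _ l (r := 0) (t := 0) trivial)
  have ρ := ro_ang (h := H.ok) (hk := hk) y₀
  have e := (ew_rot a c hy rfl ρ (fun _ y => (y.ad0 H.ok).conn.J) d.1 d.2).lower le_rfl (by omega)
  have s := ρ.rot o.m.J c.h7 c.Φ
  have k' : ∀ y : Pnt o 0, (rot (ang y.t) y.cfg).Φ = fun x => rt o.m.J (ang y.t x) (y.cfg.Φ x) :=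
    fun y => funext fun _ => cs_exp _ _ _
  refine ⟨(rt_pure o.m.J (ρ.us.clm (-ContinuousLinearMap.id ℝ ℝ)) c.h4
    ((q2D (n := 0) a c hy e s w.2 (ub_pm H.ok)).neg c.h4)).congr fun _ y x => ?_,
    ((q2C (n := 0) a c hy e s w.2 (ub_p2 H.ok)).neg c.h4).congr fun _ y x => ?_,
    (Sc.const 0).congr fun _ _ => Subsingleton.elim _ _,
    (Sc.const 0).congr fun _ _ => Subsingleton.elim _ _⟩
  · have g := congrArg (fun Φ : Y.M × ℝ → o.m.V => show o.m.V from
      (N.q2 (n := 0) D.nk w.1).D ⟨o.m, y.cfg.W, Φ, y.z⟩ x) (k' y)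
    exact (cs_exp _ _ _).trans (congrArg _ (congrArg Neg.neg g))
  · have g := congrArg (fun Φ : Y.M × ℝ → o.m.V => show Fm (Option κ × Option κ) o.m.A from
      (N.q2 (n := 0) D.nk w.1).C ⟨o.m, y.cfg.W, Φ, y.z⟩ x) (k' y)
    exact congrArg Neg.neg g

end Crest.Agent.X212.Smt39
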