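import Crest.Agent.X212.Smt39.Q1
import Crest.Agent.X212.Smt39.Main
import Crest.Agent.X212.Msi61.Tw

/-! # Row 212, MS-AFT (helper39): the twisted equations are affine -/

set_option autoImplicit false
set_option linter.unusedSectionVars false
set_option maxSynthPendingDepth 3
noncomputable section
open scoped Manifold ContDiff Topology InnerProductSpace
open MeasureTheory Set Function Filter

namespace Crest.Agent.X212.Smt39
open An Sob92 Prm93 Wz78 Mod61 Nd18 Mon62 Mon62.Dm Gla92 Msi61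
open Nk89 (famZ endsZ hc ab Fs)

section dir
variable {E : Type} [NormedAddCommGroup E] [NormedSpace ℝ E] [FiniteDimensional ℝ E]
  [MeasurableSpace E] [BorelSpace E]
  {HM : Type} [TopologicalSpace HM] {I : ModelWithCorners ℝ E HM} [I.Boundaryless]
  {M : Type} [TopologicalSpace M] [ChartedSpace HM M] [IsManifold I ∞ M] [MeasurableSpace M]
  [T2Space M] [BorelSpace M] [SecondCountableTopology M] {ι : Type} [Fintype ι]
  {N : ℕ} {Jc : An.En (Fin N)} {F : Fr I M ι} {W ρ : ι → M → An.En (Fin N)} {φ : M → ℝ}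

theorem dir_rt (hJ : Jc * Jc = -1) (hφ : Sm I φ) (hW : ∀ a x, Jc * W a x = W a x * Jc)
    (hρ : ∀ a x, Jc * ρ a x = ρ a x * Jc) {s : M → Eu (Fin N)} (hs : Sm I s) (x : M) :
    rt Jc (-φ x) (dir I F.e ρ W (fun x => rt Jc (φ x) (s x)) x) =
      dir I F.e ρ W s x + ∑ a, ρ a x (F.D a φ x • Jc (s x)) := by
  have e : ∀ a, nab I F.e W a (fun x => rt Jc (φ x) (s x)) x =
      rt Jc (φ x) (nab I F.e W a s x + F.D a φ x • Jc (s x)) := fun a =>
    ((itw_rL (F := F) hJ hφ hW x).nab ((sm_rL hφ x).mdifferentiableAt (by simp))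
      ((hs x).mdifferentiableAt (by simp)) a).trans (congrArg _ (add_assoc _ _ _).symm)
  simp only [dir, e, rt_comm (hρ _ x), rt_sum, rt_neg hJ, map_add, Finset.sum_add_distrib, rt_add]

end dir

variable {κ lam : Type} [Fintype κ] [Fintype lam] {Y : M.Mf 3} [CompactSpace Y.M]
  {D : YD Y.I Y.M κ lam} {δ δ' : ℝ} {O' : Set (Y.M × ℝ)} {Q' : Set ℝ}

section res
variable {o : Ref (res (famZ ℝ D δ O') Q')} {h : (res (famZ ℝ D δ O') Q').OK} {r k : ℕ}
  {hk : 3 ≤ k}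

theorem rw_res (y₀ : Pnt o r) : Rw (dm h hk y₀) (fun _ v => ang v.2.2.2) fun _ => D.nk.τ := by
  have c : (famZ ℝ D δ O').F0.Cb fun z => hc 1 0 z.2 := Nk89.cb_hcZ (.inl rfl) 0
  obtain ⟨ζ, z1, z2, -, -, z3⟩ := Met55.exists_cut (I := Cyf70.IC Y.I)
    ((isCompact_univ (X := Y.M)).prod (isCompact_Icc (a := (0 : ℝ)) (b := 1))) isOpen_univ
    (subset_univ _)
  refine ⟨us_dm ((SB.par contDiffOn_id).smul (SB.fixed c)), fun _ => ζ, fun _ z => hc 1 0 z.2,
    fun _ v => v.2.2.2, 0, 1, fun l hl => A0.of_cs hl (fun _ => z1) fun _ => z2,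
    ub_of_finite fun _ => c, uc_dm (by fun_prop), fun _ v x hx => ?_, fun _ x => ?_⟩
  · have e : x.2 < 0 ∨ 1 < x.2 := by
      by_contra n
      exact hx (z3 x ⟨trivial, not_lt.1 fun a => n (.inl a),
        not_lt.1 fun a => n (.inr a)⟩).self_of_nhds
    rcases e with e | e
    · have a : ∀ s < (0 : ℝ), hc 1 0 s = 0 := fun s hs => Nk89.hc_zero (by linarith)
      refine ⟨?_, .inl (a _ e)⟩
      filter_upwards [continuous_snd.continuousAt.eventually_lt_const e] with z hz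
      rw [ang, a _ hz, a _ e, mul_comm]
    · have a : ∀ s > (1 : ℝ), hc 1 0 s = 1 := fun s hs => Nk89.hc_one (by linarith)
      refine ⟨?_, .inr (a _ e)⟩
      filter_upwards [continuous_snd.continuousAt.eventually_const_lt e] with z hz
      rw [ang, a _ hz, a _ e, mul_comm]
  · rw [Nka63.nk_τ]
    exact ⟨fun e => not_lt.1 fun n => e (Nk89.hc_zero (by linarith)),
      fun e => not_lt.1 fun n => e (Nk89.hc_one (by linarith))⟩

theorem wz_res (h0 : 0 ≤ δ) (hδ : δ < δ') (y₀ : Pnt o r) :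
    WZ (dm h hk y₀) δ' (fun _ => D.Z.μ) fun _ => D.nk.τ := by
  have f := fx_Z (D := D) (O' := O') (T := ℝ) (O := univ) h0 hδ
  have w := f.wt
  have v : ∀ η > 0, ∃ A, VG D.Z.μ D.nk.τ η A := fun η hη => by
    have := vg_nk D.nk hη
    rw [Nka63.nk_dp, Measure.restrict_univ] at this
    exact ⟨_, this⟩
  have s : ∀ x z : Y.M × ℝ, δ * ab x.2 - δ * ab z.2 ≤ δ + (δ' - (δ' - δ)) * |x.2 - z.2| :=
    fun x z => by
      have := mul_le_mul_of_nonneg_left (ab_sub x.2 z.2) h0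
      linarith
  obtain ⟨A, hA⟩ := v (δ' - δ) (sub_pos.2 hδ)
  have u : ∀ a, (famZ ℝ D δ O').F0.Cb (D.Z.D a D.nk.τ) := fun a =>
    let ⟨_, hC⟩ := cbs_Dτ D; w.Cb.2 ⟨_, hC D.nk a⟩
  refine ⟨⟨h0.trans_lt hδ, fun _ => D.nk.sm_τ, fun a => ub_of_finite fun _ => u a,
    fun _ => .univ, fun _ => sfinite_μ D.Z.toPre, fun _ => .of_forall fun _ => trivial,
    fun _ x => δ * ab x.2, δ' - δ, δ, A, sub_le_self _ h0, fun _ => ⟨w.sm.continuous,
      Measure.restrict_univ.trans w.μ, hA, fun x _ z _ => ?_⟩⟩, fun _ => v,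
    fun _ => ⟨fun x => δ * ab x.2, δ' - δ, δ + δ * ab 0, w.sm.continuous, w.μ, sub_pos.2 hδ,
      sub_le_self _ h0, fun x => ?_⟩⟩
  · rw [Nka63.nk_τ]; exact s x z
  · have := s x (x.1, 0)
    rw [Nka63.nk_τ]
    simp only [sub_zero] at this
    linarith

end res

variable {N : ND Y.M lam} {o : Ref (famZ ℝ D δ O')}

variable (N) in
/-- the gradient term at the rotated spinor -/
abbrev qR (y : Pnt o 0) : Cfg (Y.M × ℝ) (Option κ) lam 0 :=
  ⟨o.m, y.cfg.W, fun x => rt o.m.J (ang y.t x) (y.cfg.Φ x), y.z⟩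

variable (N D δ O') in
/-- the difference of the twisted and the unperturbed equations -/
def dT : ℝ → PtX (Y.M × ℝ) (Option κ) lam 0 0 0 := eT N D - (famZ ℝ D δ O').eq0 0 0 0

theorem rot_eq (y : Pnt o 0) : (rot (ang y.t) y.cfg).Φ = fun x => rt o.m.J (ang y.t x) (y.cfg.Φ x) :=
  funext fun _ => cs_exp _ _ _

theorem dT_D (h : (famZ ℝ D δ O').OK) (y : Pnt o 0) (x : Y.M × ℝ) : (dT D δ O' N y.t).D y.cfg x =
    ∑ a, o.m.ρ a x (D.Z.D a (ang y.t) x • o.m.J (y.cfg.Φ x)) -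
      rt o.m.J (-ang y.t x) ((N.q1 (n := 0) D.nk).D (qR y) x) := by
  have g := congrArg (fun Φ : Y.M × ℝ → o.m.V => show o.m.V from
    dir (Cyf70.IC Y.I) D.Z.e o.m.ρ y.cfg.W Φ x - (N.q1 (n := 0) D.nk).D ⟨o.m, y.cfg.W, Φ, y.z⟩ x)
    (rot_eq y)
  have e := dir_rt (F := D.Z) o.ok.Jsq (sm_ang y.t) (y.ad0 h).conn.J o.ok.Jρ (y.ad0 h).sm x
  refine (congrArg (· - dir (Cyf70.IC Y.I) D.Z.e o.m.ρ y.cfg.W y.cfg.Φ x)
    ((cs_exp _ _ _).trans ((congrArg _ g).trans (map_sub (rL _ _) _ _)))).trans ?_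
  refine (congrArg (fun v => v - _ - _) e).trans ?_
  exact (sub_right_comm _ _ _).trans (congrArg (· - _) (add_sub_cancel_left _ _))

theorem dT_C (h : (famZ ℝ D δ O').OK) (y : Pnt o 0) (x : Y.M × ℝ) :
    (dT D δ O' N y.t).C y.cfg x = -(N.q1 (n := 0) D.nk).C (qR y) x := by
  have g := congrArg (fun Φ : Y.M × ℝ → o.m.V => show Fm (Option κ × Option κ) o.m.A from
    (N.q1 (n := 0) D.nk).C ⟨o.m, y.cfg.W, Φ, y.z⟩ x) (rot_eq y)
  have e := mu_cs (x := x) h.B o.ok (Circle.exp (ang y.t x)) (y.cfg.Φ x) (y.cfg.Φ x)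
  rw [Circle.norm_coe, one_pow, one_smul] at e
  exact (congrArg₂ (fun u v => o.m.p2 D.B x (o.m.Fg D.Z y.cfg.W x) - u - v - _) e g).trans
    (sub_sub_cancel_left _ _)

theorem pj_dT (h : (famZ ℝ D δ O').OK) : Pj o (dT D δ O' N) := by
  refine ⟨fun y x => ?_, fun y x => ?_⟩
  · have e : ∀ a v, o.m.pm D.B x (o.m.ρ a x (o.m.pp D.B x v)) = o.m.ρ a x (o.m.pp D.B x v) :=
      fun a v => congrArg (fun S : An.En (Fin o.m.N) => S v) (show o.m.pm D.B x * o.m.ρ a x *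
        o.m.pp D.B x = o.m.ρ a x * o.m.pp D.B x by
          rw [Wz78.pm_rho (B := D.B) h.B o.ok, mul_assoc, Wz78.pp_pp (B := D.B) h.B o.ok])
    have p : ∀ c : ℝ, c • o.m.J (y.cfg.Φ x) = o.m.pp D.B x (c • o.m.J (y.cfg.Φ x)) := fun c =>
      (congrArg (fun v => c • o.m.J v) ((y.ad0 h).pos x).symm).trans ((congrArg (c • ·)
        (congrArg (fun S : An.En (Fin o.m.N) => S (y.cfg.Φ x)) (J_pp o.ok x))).trans
          (map_smul (o.m.pp D.B x) c _).symm)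
    have q : o.m.pm D.B x ((N.q1 (n := 0) D.nk).D (qR y) x) = (N.q1 (n := 0) D.nk).D (qR y) x :=
      (map_neg _ _).trans (congrArg _ ((map_sum _ _ _).trans (Finset.sum_congr rfl fun a _ =>
        (map_smul _ _ _).trans (congrArg _ (e a _)))))
    rw [dT_D h]
    refine (map_sub _ _ _).trans (congrArg₂ (· - ·) ((map_sum _ _ _).trans
      (Finset.sum_congr rfl fun a _ => ?_)) ((rt_comm (J_pm o.ok x)).trans (congrArg _ q)))
    rw [p]
    exact e a _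
  · rw [dT_C h]
    exact (map_neg _ _).trans (congrArg _ ((map_smul _ _ _).trans
      (congrArg _ (Std94.p2_p2 h.B x _))))

variable (N D δ)

/-- **MS-AFT** -/
theorem afL : AfL N D δ := by
  intro h b o _ R q y l a e
  have := h.ok.con.toPreconnectedSpace
  have H := hy_ends o (h.X b)
  have W := wf_ends (h.X b) h.d2
  rw [← add_sub_cancel ((famZ ℝ D δ (spO b univ)).eq0 0 0 0) (eT N D)]
  refine H.aff1 (τ := dT D δ _ N) (Map77.adj_rem H.ok) (fun t ht => (W.lg H.ok ht).mono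
    fun Q' L hQ k hk h7 y₀ => ?_) (pj_dT H.ok) isPreconnected_univ (y₁ := y) ?_
  · have H' := H.res hQ
    have f := fx_Z (D := D) (O' := spO b univ) (T := ℝ) (O := univ ∩ Q') h.d0.le h.dN
    have f' : Fx (𝔉 := res (famZ ℝ D δ (spO b univ)) Q') (kZ D δ _ ℝ) (univ ∩ Q') _ N.δ :=
      ⟨f.act, f.wt, f.ex⟩
    have c := H'.cfOK h7 (hk := hk) y₀
    have n := f'.nh H'.ok (hk := hk) (y₀ := y₀) c.h4
    have ρ := rw_res (h := H'.ok) (hk := hk) y₀
    have ch : CH (fun _ v => ang v.2.2.2) (fun _ => D.Z.μ) (fun _ => D.nk.τ) (k + 1)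
        (kd (𝔉 := res (famZ ℝ D δ (spO b univ)) Q') (kZ D δ _ ℝ) H'.ok hk y₀ f'.act) N :=
      ⟨n, nc_dm (Cys97.sm _ _ _ _) H' W.res L h7 n f'.sep, ⟨c, ρ.ro, o.ok.Jsq, o.ok.Jsk,
        fun _ y => (y.ad0 H'.ok).conn.J, fun _ => o.ok.Jρ, fun _ => o.ok.jJ⟩, h.ok.nd,
        wz_res h.d0.le h.dN y₀, ρ, fun _ _ => rfl, fun _ _ => rfl, fun _ _ _ _ => Nka63.nk_cut D _⟩
    exact ⟨((A0.fsum Finset.univ fun a _ => ((A0.smul c.lev c.h4
      (ρ.ro.dG c.h4 contDiff_id c.F a) (c.Φ.clm c.h4 o.m.J)).aff).app c.h4 (c.ρ a)).sub c.h4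
      (ch.q1D (n := 0) (ub_pp H'.ok) fun _ => J_pp o.ok)).congr fun _ y x => dT_D H.ok (up y) x,
      ((ch.q1C (n := 0) (ub_p2 H'.ok)).neg c.h4).congr fun _ y x => dT_C H.ok (up y) x,
      (Sc.const 0).congr fun _ _ => Subsingleton.elim _ _⟩
  · rw [dT, add_sub_cancel]
    have s : o.Sm (q.sum fun w c => c • τT N D w) := mem_SmS.1 (Submodule.sum_mem _ fun w _ =>
      Submodule.smul_mem _ _ (mem_SmS.2 (smL D δ N h b o R l w)))
    have z : (eT N D + q.sum fun w c => c • τT N D w) y.t = eQ N D q := by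
      rw [tot_eq, a]
      exact twP_zero ang_zero
    exact Dc.of_zr H.ok s (z ▸ e.D) (z ▸ e.C)

/-- **MS-AFF** -/
theorem affL : AffL N D δ := affL_of N D (afL D δ N) (smL D δ N)

end Crest.Agent.X212.Smt39
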