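import Crest.Agent.X212.Smt39.Res

/-! # Row 212, MS-AFT (helper39): densities at a rotated spinor -/

set_option autoImplicit false
set_option linter.unusedSectionVars false
set_option maxSynthPendingDepth 3
noncomputable section
open scoped Manifold ContDiff Topology InnerProductSpace
open MeasureTheory Set Function Filter

namespace Crest.Agent.X212.Smt39
open An Sob92 Prm93 Wz78 Dgr80 Mon62 Mon62.Dm Gla92
open Ell97 (UB)
open Wrd81 (wd)
open Cyc79 (Cy)

variable {E : Type} [NormedAddCommGroup E] [NormedSpace ℝ E] [FiniteDimensional ℝ E]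
  [MeasurableSpace E] [BorelSpace E]
  {HM : Type} [TopologicalSpace HM] {I : ModelWithCorners ℝ E HM} [I.Boundaryless]
  {M : Type} [TopologicalSpace M] [ChartedSpace HM M] [IsManifold I ∞ M] [MeasurableSpace M]
  [T2Space M] [BorelSpace M] [SecondCountableTopology M] {ι : Type} [Fintype ι]
  {lam : Type} [Fintype lam]
  {J : Type} {X Q : J → Type} [∀ i, NormedAddCommGroup (X i)] [∀ i, NormedSpace ℝ (X i)]
  {D : Dm I M ι X Q} {j : ℕ}

section add
variable {U V : Type} [NormedAddCommGroup U] [InnerProductSpace ℝ U] [CompleteSpace U]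
  [NormedAddCommGroup V] [InnerProductSpace ℝ V] [CompleteSpace V]
  {G : ∀ i, X i → Fr I M ι} {A : ∀ i, Q i → ι → M → CL V V} (hj : 8 ≤ j) (hF : D.FF G)
  (hB : D.RB V G) (hE : D.RE V G) (hA : ∀ c, D.Mul j fun i y => A i y c)
  (hs : ∀ i y c x, Skew (A i y c x)) {l l' : ∀ i, Q i → M → V}
include hj hF hB hE hA hs

theorem slT2 {L : ∀ i, Q i → SL M V} (hL : D.SLk j L) (h : A2 D j l) :
    A2 D j fun i y => slT (G i (D.pt i y)) (A i y) (L i y) (l i y) := by
  rcases hL with ⟨T, rfl, -, h1⟩ | rfl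
  · exact h.ap h1
  · exact h.sl hj hF hB hE hA hs (.inr rfl)

theorem slT_add {L : ∀ i, Q i → SL M V} (h : A2 D j l) (h' : A2 D j l') (i : J) (y : Q i) :
    slT (G i (D.pt i y)) (A i y) (L i y) (fun x => l i y x + l' i y x) = fun x =>
      slT (G i (D.pt i y)) (A i y) (L i y) (l i y) x +
        slT (G i (D.pt i y)) (A i y) (L i y) (l' i y) x := by
  have x : ∀ s, (D.P i).Cb s → ∃ u, (G i (D.pt i y)).IsRes (A i y) s u := fun s h =>
    (hE.ex i y _ s (fun c => (hA c).sz.cb i y) (hs i y) h).imp fun _ => And.left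
  cases L i y with
  | op T => exact funext fun _ => map_add _ _ _
  | G =>
    exact Mp86.res_add (hF.bump i y) ⟨fun a => (hA a).sz.sm i y, hs i y⟩ (x _ (h.sz.cb i y))
      (x _ (h'.sz.cb i y))

variable {w : ∀ i, Q i → List (SL M V)} (hw : Fa (D.SLk j) w)
include hw

theorem bk_add : ∀ {l l' : ∀ i, Q i → M → V}, A2 D j l → A2 D j l' → ∀ i y,
    bk (G i (D.pt i y)) (A i y) (w i y) (fun x => l i y x + l' i y x) = fun x =>
      bk (G i (D.pt i y)) (A i y) (w i y) (l i y) x +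
        bk (G i (D.pt i y)) (A i y) (w i y) (l' i y) x := by
  induction hw with
  | nil => exact fun _ _ _ _ => rfl
  | cons ht _ ih =>
    intro l l' h h' i y
    rw [bk, slT_add hj hF hB hE hA hs h h']
    exact ih (slT2 hj hF hB hE hA hs ht h) (slT2 hj hF hB hE hA hs ht h') i y

theorem gc_add (ρ : CL U (CL V V)) (s : ∀ i, Q i → M → V) : ∀ {l l' : ∀ i, Q i → M → V},
    A2 D j l → A2 D j l' → ∀ i y x,
    gc (G i (D.pt i y)) (A i y) ρ (s i y) (w i y) (fun x => l i y x + l' i y x) x =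
      gc (G i (D.pt i y)) (A i y) ρ (s i y) (w i y) (l i y) x +
        gc (G i (D.pt i y)) (A i y) ρ (s i y) (w i y) (l' i y) x := by
  induction hw with
  | nil => exact fun _ _ _ _ _ => (add_zero _).symm
  | @cons t _ ht _ ih =>
    intro l l' h h' i y x
    have e := slT_add hj hF hB hE hA hs (L := t) h h' i y
    have k := ih (slT2 hj hF hB hE hA hs ht h) (slT2 hj hF hB hE hA hs ht h') i y x
    rcases ht with ⟨T, rfl, -⟩ | rfl
    · rw [gc, e]; exact k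
    · simp only [slT] at e k
      simp only [gc, e, k]
      ext1 b
      simp only [cur, nab_add b (Mp86.sm_res _ _ _ x) (Mp86.sm_res _ _ _ x), tp, map_add,
        add_apply, PiLp.add_apply, PiLp.sub_apply]
      abel

end add

section sed
variable {r : ℕ} {m : Md M ι lam} {W : m.Cn} {Φ Ψ : M → m.V} {z : EuclideanSpace ℂ (Fin r)}
  {F : Fr I M ι}

variable (m W Φ Ψ z) in
/-- seeds which do not see the spinor -/
structure SI (S : Sed M ι lam r) : Prop where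
  s : S.s ⟨m, W, Ψ, z⟩ = S.s ⟨m, W, Φ, z⟩
  sA : S.sA ⟨m, W, Ψ, z⟩ = S.sA ⟨m, W, Φ, z⟩
  sP : ∀ l, S.sP ⟨m, W, Ψ, z⟩ l = 0

theorem la_i : (⟨m, W, Ψ, z⟩ : Cfg M ι lam r).la F = (⟨m, W, Φ, z⟩ : Cfg M ι lam r).la F :=
  funext fun t => by cases t <;> rfl

theorem laS_i : laS (⟨m, W, Ψ, z⟩ : Cfg M ι lam r) = laS (⟨m, W, Φ, z⟩ : Cfg M ι lam r) :=
  funext fun t => by cases t <;> rfl

theorem si_cyc (d : Cy M) : SI m W Φ Ψ z (d.sed F) := by
  have e : Cyc79.bf F (⟨m, W, Ψ, z⟩ : Cfg M ι lam r) = Cyc79.bf F (⟨m, W, Φ, z⟩ : Cfg M ι lam r) :=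
    funext fun f => funext fun f' => by rw [Cyc79.bf, la_i (Φ := Φ)]; rfl
  refine ⟨?_, ?_, fun _ => rfl⟩
  · simp only [Cy.sed, Cy.al, Cy.be, e]; rfl
  · simp only [Cy.sed, Cyc79.gh, e]; rfl

theorem SI.wd {S : Sed M ι lam r} (h : SI m W Φ Ψ z S) (w : List (La M)) :
    SI m W Φ Ψ z (S.wd F w) := by
  refine ⟨?_, ?_, fun _ => h.sP _⟩
  · simp only [Sed.wd, h.s, la_i (Φ := Φ) (Ψ := Ψ)]
  · simp only [Sed.wd, h.s, h.sA, laS_i (Φ := Φ) (Ψ := Ψ)]

variable {φ : M → ℝ} (h : GT m.J F W φ) (hρ : ∀ a x, m.J * m.ρ a x = m.ρ a x * m.J)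
  (u v : SW M) (x : M)
include h hρ

theorem one12 (f : M → ℝ) : (Den.sw F .one u v).h (c1 m W Φ φ z) x =
    (Den.sw F .one u v).h (c2 m F W Φ φ z) x ∧
    (∀ a, m.pg x ((Den.sw F .one u v).gA (c1 m W Φ φ z) f x a) =
      m.pg x ((Den.sw F .one u v).gA (c2 m F W Φ φ z) f x a)) ∧
    rt m.J (-φ x) ((Den.sw F .one u v).gP (c1 m W Φ φ z) f x) =
      (Den.sw F .one u v).gP (c2 m F W Φ φ z) f x := by
  refine ⟨?_, fun a => ?_, ?_⟩
  · simp only [Den.sw, pk, nw12 h hρ, one_apply_eq_self, inner_rr h.sq h.sk]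
  · simp only [Den.sw, pk, nw12 h hρ, one_apply_eq_self, ← rt_smul, PiLp.add_apply,
      map_add, swA12 h hρ]
  · simp only [Den.sw, pk, nw12 h hρ, one_apply_eq_self, ← rt_smul, rt_add, swP12 h hρ, rt_neg h.sq]

omit h hρ in
variable (m W Φ φ z F) in
/-- the untwisted test section -/
abbrev pj (s : M → Eu lam) (u : SW M) (x : M) : m.V := m.j x (s x) (nw F (c2 m F W Φ φ z) u x)

theorem two12 (hj : ∀ x s, m.j x s * m.J = -(m.J * m.j x s)) (s : M → Eu lam) (f g : M → ℝ) :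
    ((Den.sw F (.re s) u v).h (c1 m W Φ φ z) x =
      Real.cos (2 * φ x) * ⟪pj m W Φ z F φ s u x, nw F (c2 m F W Φ φ z) v x⟫_ℝ -
        Real.sin (2 * φ x) * ⟪m.J (pj m W Φ z F φ s u x), nw F (c2 m F W Φ φ z) v x⟫_ℝ ∧
    (Den.sw F (.im s) u v).h (c1 m W Φ φ z) x =
      Real.sin (2 * φ x) * ⟪pj m W Φ z F φ s u x, nw F (c2 m F W Φ φ z) v x⟫_ℝ +
        Real.cos (2 * φ x) * ⟪m.J (pj m W Φ z F φ s u x), nw F (c2 m F W Φ φ z) v x⟫_ℝ) ∧
    (∀ a, m.pg x ((Den.sw F (.re s) u v).gA (c1 m W Φ φ z) f x a +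
      (Den.sw F (.im s) u v).gA (c1 m W Φ φ z) g x a) = m.pg x ((
        (swA F (c2 m F W Φ φ z) u (fun x => f x • rt m.J (-(2 * φ x)) (pj m W Φ z F φ s v x)) x +
        swA F (c2 m F W Φ φ z) u (fun x => g x • rt m.J (-(2 * φ x)) (m.J (pj m W Φ z F φ s v x))) x) +
        (swA F (c2 m F W Φ φ z) v (fun x => f x • rt m.J (-(2 * φ x)) (pj m W Φ z F φ s u x)) x +
        swA F (c2 m F W Φ φ z) v
          (fun x => g x • rt m.J (-(2 * φ x)) (m.J (pj m W Φ z F φ s u x))) x)) a)) ∧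
    rt m.J (-φ x) ((Den.sw F (.re s) u v).gP (c1 m W Φ φ z) f x +
      (Den.sw F (.im s) u v).gP (c1 m W Φ φ z) g x) =
        (Dgr80.swP F (c2 m F W Φ φ z) u
          (fun x => f x • rt m.J (-(2 * φ x)) (pj m W Φ z F φ s v x)) x +
        Dgr80.swP F (c2 m F W Φ φ z) u
          (fun x => g x • rt m.J (-(2 * φ x)) (m.J (pj m W Φ z F φ s v x))) x) +
        (Dgr80.swP F (c2 m F W Φ φ z) v
          (fun x => f x • rt m.J (-(2 * φ x)) (pj m W Φ z F φ s u x)) x +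
        Dgr80.swP F (c2 m F W Φ φ z) v
          (fun x => g x • rt m.J (-(2 * φ x)) (m.J (pj m W Φ z F φ s u x))) x) := by
  have e1 : ∀ x (p : m.V), m.j x (s x) (rt m.J (φ x) p) =
      rt m.J (φ x) (rt m.J (-(2 * φ x)) (m.j x (s x) p)) :=
    fun x p => by rw [rt_anti (hj x _), rt_rt h.sq]; congr 1; ring
  have e2 : ∀ x (p : m.V), (m.J * m.j x (s x)) (rt m.J (φ x) p) =
      rt m.J (φ x) (rt m.J (-(2 * φ x)) (m.J (m.j x (s x) p))) :=
    fun x p => by rw [mul_apply_eq_comp, e1, rt_comm rfl, rt_comm rfl]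
  refine ⟨?_, fun a => ?_, ?_⟩
  · simp only [Den.sw, pk, nw12 h hρ, e1, e2, inner_rr h.sq h.sk]
    simp only [rt, Real.cos_neg, Real.sin_neg, inner_add_left, real_inner_smul_left, JJ h.sq,
      inner_neg_left]
    constructor <;> ring
  · simp only [Den.sw, pk, nw12 h hρ, e1, e2, ← rt_smul (α := φ _), PiLp.add_apply, map_add,
      swA12 h hρ]
    abel
  · simp only [Den.sw, pk, nw12 h hρ, e1, e2, ← rt_smul (α := φ _), rt_add, swP12 h hρ, rt_neg h.sq]
    abel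

end sed

variable {μ : MF M ι lam J} {r : ℕ} (c : CF D μ r) (θ : ∀ i, X i → M → ℝ)

/-- the rotated configurations -/
abbrev cR (i : J) (y : Q i) : Cfg M ι lam r :=
  c1 (μ.m i) (c.W i y) (c.Φ i y) (θ i (D.pt i y)) (c.z i y)

/-- the gauge transformed configurations -/
abbrev cW : CF D μ r := ⟨c.G, fun i y => wr μ.Jc (c.F i y) (c.W i y) (θ i (D.pt i y)), c.Φ, c.z⟩

variable (D j) in
/-- pairs of charge two -/
def Ch (f g : ∀ i, Q i → M → ℝ) : Prop := ∃ a b, D.A0 False j a ∧ D.A0 False j b ∧ ∀ i y x,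
  f i y x = Real.cos (2 * θ i (D.pt i y) x) * a i y x - Real.sin (2 * θ i (D.pt i y) x) * b i y x ∧
  g i y x = Real.sin (2 * θ i (D.pt i y) x) * a i y x + Real.cos (2 * θ i (D.pt i y) x) * b i y x

variable (j) in
/-- neutral densities -/
structure D0 (d : ∀ i, Q i → Den M ι lam r) : Prop where
  h : D.A0 False j fun i y => (d i y).h (cR c θ i y)
  gA : ∀ f, D.A0 False j f → ∀ a, D.A0 False j (V := μ.A) fun i y x =>
    μ.pg i x ((d i y).gA (cR c θ i y) (f i y) x a)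
  gP : ∀ f, D.A0 False j f → D.A0 False j (V := μ.V) fun i y x =>
    rt μ.Jc (-θ i (D.pt i y) x) ((d i y).gP (cR c θ i y) (f i y) x)

variable (j) in
/-- densities of charge two -/
structure D2 (d d' : ∀ i, Q i → Den M ι lam r) : Prop where
  h : Ch D j θ (fun i y => (d i y).h (cR c θ i y)) fun i y => (d' i y).h (cR c θ i y)
  gA : ∀ f g, Ch D j θ f g → ∀ a, D.A0 False j (V := μ.A) fun i y x =>
    μ.pg i x ((d i y).gA (cR c θ i y) (f i y) x a + (d' i y).gA (cR c θ i y) (g i y) x a)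
  gP : ∀ f g, Ch D j θ f g → D.A0 False j (V := μ.V) fun i y x => rt μ.Jc (-θ i (D.pt i y) x)
    ((d i y).gP (cR c θ i y) (f i y) x + (d' i y).gP (cR c θ i y) (g i y) x)

variable (j) in
/-- the hypotheses -/
structure RH : Prop where
  o : c.OK False j
  ro : Ro D θ
  sq : μ.Jc * μ.Jc = -1
  sk : Skw μ.Jc
  W : ∀ i y a x, μ.Jc * c.W i y a x = c.W i y a x * μ.Jc
  ρ : ∀ i a x, μ.Jc * μ.ρ i a x = μ.ρ i a x * μ.Jc
  j : ∀ i x s, μ.j i x s * μ.Jc = -(μ.Jc * μ.j i x s)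

variable {c θ}

theorem d0_sed (o : c.OK False j) {S S' : ∀ i, Q i → Sed M ι lam r} (h : c.SedS j S)
    (h' : c.SedS j S') (e : ∀ i y Ψ, SI (μ.m i) (c.W i y) (c.Φ i y) Ψ (c.z i y) (S i y))
    (e' : ∀ i y Ψ, SI (μ.m i) (c.W i y) (c.Φ i y) Ψ (c.z i y) (S' i y)) :
    D0 j c θ fun i y => Den.sed (S i y) (S' i y) := by
  have d := CF.DenS.sed o.h7 h h'
  refine ⟨d.h.congr fun i y x => ?_, fun f hf a => (((d.gA _ _ hf).clm o.h4
    (PiLp.proj 2 (fun _ : ι => μ.A) a)).app o.h4 o.pg).congr fun i y x => ?_,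
    fun f hf => A0.zero.congr fun i y x => ?_⟩
  · simp only [Den.sed, (e i y _).s, (e' i y _).s]
  · simp only [Den.sed, (e i y _).s, (e' i y _).s, (e i y _).sA, (e' i y _).sA]; rfl
  · simp only [Den.sed, (e i y _).sP, (e' i y _).sP]
    simp [rt]

namespace RH
variable (h : RH j c θ) {u v : ∀ i, Q i → SW M}
include h

theorem gt (i : J) (y : Q i) : GT μ.Jc (c.F i y) (c.W i y) (θ i (D.pt i y)) :=
  ⟨h.sq, h.sk, h.o.F.bump i y, ⟨fun a => (h.o.mulV a).sz.sm i y, h.o.sk i y⟩, h.W i y,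
    h.ro.us.sz.sm i y⟩

theorem ok : (cW c θ).OK False j :=
  have o := h.o
  ⟨o.hj, o.F, o.bV, o.bA, o.eV, o.eA, fun a => ((o.W a).add ((A0.smul o.lev o.h4
    (h.ro.dG o.h4 contDiff_id o.F a) (A0.fixed (UB.const (hsL μ.Jc)))).aff)).congr fun i y x => by
      simp only [wr, map_add, map_smul]; rfl,
    fun i y => (h.gt i y).mc'.sk, o.Φ, o.z, o.ρ, o.j, o.pg⟩

theorem d0 (hu : Fa ((cW c θ).LtY j) u) (hv : Fa ((cW c θ).LtY j) v) :
    D0 j c θ fun i y => Den.sw (c.F i y) .one (u i y) (v i y) := by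
  have o := h.ok
  have d := o.denSw o.pk_one hu hv
  have e := fun i y => one12 (m := μ.m i) (Φ := c.Φ i y) (z := c.z i y) (h.gt i y) (h.ρ i)
    (u i y) (v i y)
  exact ⟨d.h.congr fun i y x => (e i y x 0).1, fun f hf a => (((d.gA _ _ hf).clm o.h4
    (PiLp.proj 2 (fun _ : ι => μ.A) a)).app o.h4 o.pg).congr fun i y x => (e i y x _).2.1 a,
    fun f hf => (d.gP _ _ hf).congr fun i y x => (e i y x _).2.2⟩

/-- the test sections of a pair -/
theorem two {f g : ∀ i, Q i → M → ℝ} (hf : Ch D j θ f g) {p : ∀ i, Q i → M → μ.V}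
    (hp : D.A0 False j p) (hu : Fa ((cW c θ).LtY j) u) :
    (D.A0 False j (V := Fm ι μ.A) fun i y x => swA (c.F i y) ((cW c θ).c i y) (u i y)
      (fun x => f i y x • rt μ.Jc (-(2 * θ i (D.pt i y) x)) (p i y x)) x +
        swA (c.F i y) ((cW c θ).c i y) (u i y)
          (fun x => g i y x • rt μ.Jc (-(2 * θ i (D.pt i y) x)) (μ.Jc (p i y x))) x) ∧
    D.A0 False j (V := μ.V) fun i y x => Dgr80.swP (c.F i y) ((cW c θ).c i y) (u i y)
      (fun x => f i y x • rt μ.Jc (-(2 * θ i (D.pt i y) x)) (p i y x)) x +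
        Dgr80.swP (c.F i y) ((cW c θ).c i y) (u i y)
          (fun x => g i y x • rt μ.Jc (-(2 * θ i (D.pt i y) x)) (μ.Jc (p i y x))) x := by
  have o := h.ok
  obtain ⟨a, b, ha, hb, e⟩ := hf
  have t2 : ContDiff ℝ ∞ fun s : ℝ => 2 * s := contDiff_const.mul contDiff_id
  have C := h.ro.a2 o.h4 (Real.contDiff_cos.comp t2)
  have S := h.ro.a2 o.h4 (Real.contDiff_sin.comp t2)
  have S' := h.ro.a2 o.h4 (Real.contDiff_sin.comp t2).neg
  have R : ∀ {p : ∀ i, Q i → M → μ.V}, D.A0 False j p →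
      A2 D j fun i y x => rt μ.Jc (-(2 * θ i (D.pt i y) x)) (p i y x) := fun hp =>
    ((C.smul o.h7 (.of hp)).add (S'.smul o.h7 (.of (hp.clm o.h4 μ.Jc)))).congr fun i y x => by
      simp only [rt, Real.cos_neg, Real.sin_neg, comp_apply]
  have hJ := hp.clm o.h4 μ.Jc
  have l1 := A2.smul o.h7 (f := f) (((C.smul o.h7 (.of ha)).add (S'.smul o.h7 (.of hb))).congr
    fun i y x => by simp only [(e i y x).1, comp_apply, smul_eq_mul]; ring) (R hp)
  have l2 := A2.smul o.h7 (f := g) (((S.smul o.h7 (.of ha)).add (C.smul o.h7 (.of hb))).congr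
    fun i y x => (e i y x).2) (R hJ)
  have L := ((A0.smul o.lev o.h4 ha hp).add (A0.smul o.lev o.h4 hb hJ)).aff
  have k : ∀ i y, (fun x => f i y x • rt μ.Jc (-(2 * θ i (D.pt i y) x)) (p i y x) +
      g i y x • rt μ.Jc (-(2 * θ i (D.pt i y) x)) (μ.Jc (p i y x))) =
      fun x => a i y x • p i y x + b i y x • μ.Jc (p i y x) := fun i y => funext fun x => by
    rw [← rt_smul, ← rt_smul, ← rt_add, ← rt_neg h.sq (α := 2 * θ i (D.pt i y) x)
      (v := a i y x • p i y x + _), (e i y x).1, (e i y x).2]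
    congr 1
    simp only [rt, map_add, map_smul, JJ h.sq]
    module
  have w := o.ltS hu
  refine ⟨(o.engV.gc opL o.nP w L).congr fun i y x => ?_, (o.dn (o.engV.bk w L)).congr
    fun i y x => ?_⟩
  · rw [← k]
    exact (gc_add o.hj o.F o.bV o.eV o.mulV o.sk w opL (fun i y => nP ((cW c θ).c i y)) l1 l2
      i y x).symm
  · rw [← k, bk_add o.hj o.F o.bV o.eV o.mulV o.sk w l1 l2]
    simp only [Dgr80.swP, Dgr80.dn, inner_add_right, mul_add, smul_add, add_smul]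
    abel

theorem d2 {s : ∀ i, Q i → M → Eu lam} (hs : D.A0 False j s) (hu : Fa ((cW c θ).LtY j) u)
    (hv : Fa ((cW c θ).LtY j) v) : D2 j c θ (fun i y => Den.sw (c.F i y) (.re (s i y)) (u i y) (v i y))
      fun i y => Den.sw (c.F i y) (.im (s i y)) (u i y) (v i y) := by
  have o := h.ok
  have pu := o.pk_re hs _ _ (o.nw hu)
  have pv := o.pk_re hs _ _ (o.nw hv)
  have e := fun i y x => two12 (m := μ.m i) (Φ := c.Φ i y) (z := c.z i y) (h.gt i y) (h.ρ i)
    (u i y) (v i y) x (h.j i) (s i y)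
  exact ⟨⟨_, _, (pu.inner o.h7 (o.nw hv)).aff, ((pu.clm o.h4 μ.Jc).inner o.h7 (o.nw hv)).aff,
    fun i y x => (e i y x 0 0).1⟩, fun f g hf a => ((((h.two hf pv hu).1.add (h.two hf pu hv).1).clm
      o.h4 (PiLp.proj 2 (fun _ : ι => μ.A) a)).app o.h4 o.pg).congr fun i y x => (e i y x _ _).2.1 a,
    fun f g hf => ((h.two hf pv hu).2.add (h.two hf pu hv).2).congr fun i y x => (e i y x _ _).2.2⟩

end RH

end Crest.Agent.X212.Smt39
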