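import Crest.Agent.X212.Smt39.Den

/-! # Row 212, MS-AFT (helper39): the gradient term at a rotated spinor -/

set_option autoImplicit false
set_option linter.unusedSectionVars false
set_option maxSynthPendingDepth 3
noncomputable section
open scoped Manifold ContDiff Topology InnerProductSpace
open MeasureTheory Set Function Filter

namespace Crest.Agent.X212.Smt39
open An Sob92 Prm93 Wz78 Dgr80 Nd18 Mon62 Mon62.Dm Gla92
open Ell97 (UB)

variable {E3 : Type} [NormedAddCommGroup E3] [NormedSpace ℝ E3] [FiniteDimensional ℝ E3]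
  [MeasurableSpace E3] [BorelSpace E3]
  {H3 : Type} [TopologicalSpace H3] {I3 : ModelWithCorners ℝ E3 H3} [I3.Boundaryless]
  {Y : Type} [TopologicalSpace Y] [ChartedSpace H3 Y] [IsManifold I3 ∞ Y] [T2Space Y]
  [MeasurableSpace Y] [BorelSpace Y] [SecondCountableTopology Y] [CompactSpace Y]
  {κ : Type} [Fintype κ] {lam : Type} [Fintype lam]
  {E : Type} [NormedAddCommGroup E] [NormedSpace ℝ E] [FiniteDimensional ℝ E]
  [MeasurableSpace E] [BorelSpace E]
  {HM : Type} [TopologicalSpace HM] {I : ModelWithCorners ℝ E HM} [I.Boundaryless]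
  {M : Type} [TopologicalSpace M] [ChartedSpace HM M] [IsManifold I ∞ M] [MeasurableSpace M]
  [T2Space M] [BorelSpace M] [SecondCountableTopology M] {DY : YD I3 Y κ lam}
  {J : Type} {X Q : J → Type} [∀ i, NormedAddCommGroup (X i)] [∀ i, NormedSpace ℝ (X i)]

section inv
variable (N : ND Y lam)

/-- the rotation of the coordinates of charge two -/
def rho (α : ℝ) : (N.J → ℝ) →L[ℝ] N.J → ℝ := LinearMap.toContinuousLinearMap
  { toFun := fun x => Sum.elim (fun k => x (.inl k)) (Sum.elim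
      (fun k => Real.cos α * x (.inr (.inl k)) - Real.sin α * x (.inr (.inr k)))
      fun k => Real.sin α * x (.inr (.inl k)) + Real.cos α * x (.inr (.inr k)))
    map_add' := fun x y => funext fun k => by rcases k with k | k | k <;> simp <;> ring
    map_smul' := fun t x => funext fun k => by rcases k with k | k | k <;> simp <;> ring }

variable {N} (hN : N.OK DY) (α : ℝ) (v : N.J → ℝ)
include hN

theorem fd_rho (e : N.J → ℝ) : fderiv ℝ (fun x => N.φ (N.cx x)) v e =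
    fderiv ℝ (fun x => N.φ (N.cx x)) (rho N α v) (rho N α e) := by
  have d : Differentiable ℝ fun x => N.φ (N.cx x) :=
    (hN.sm.comp (contDiff_cx N)).differentiable (by simp)
  have k : (fun x => N.φ (N.cx x)) = (fun x => N.φ (N.cx x)) ∘ rho N α := funext fun x => by
    rw [comp_apply, ← hN.inv (Circle.exp α)]
    congr 2
    funext k
    apply Complex.ext <;> simp [rho, ND.cx, Complex.exp_ofReal_mul_I_re,
      Complex.exp_ofReal_mul_I_im, add_comm]
  conv_lhs => rw [k]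
  rw [fderiv_comp _ (d _) (rho N α).differentiableAt, ContinuousLinearMap.fderiv]
  rfl

theorem fd0 (k : N.J0) : fderiv ℝ (fun x => N.φ (N.cx x)) (rho N α v) (Pi.single (.inl k) 1) =
    fderiv ℝ (fun x => N.φ (N.cx x)) v (Pi.single (.inl k) 1) := by
  rw [fd_rho hN α v]
  congr 1
  funext l
  rcases l with l | l | l <;> simp [rho, Pi.single_apply]

theorem fd2 (k : N.J2) :
    fderiv ℝ (fun x => N.φ (N.cx x)) (rho N α v) (Pi.single (.inr (.inl k)) 1) =
      Real.cos α * fderiv ℝ (fun x => N.φ (N.cx x)) v (Pi.single (.inr (.inl k)) 1) -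
        Real.sin α * fderiv ℝ (fun x => N.φ (N.cx x)) v (Pi.single (.inr (.inr k)) 1) ∧
    fderiv ℝ (fun x => N.φ (N.cx x)) (rho N α v) (Pi.single (.inr (.inr k)) 1) =
      Real.sin α * fderiv ℝ (fun x => N.φ (N.cx x)) v (Pi.single (.inr (.inl k)) 1) +
        Real.cos α * fderiv ℝ (fun x => N.φ (N.cx x)) v (Pi.single (.inr (.inr k)) 1) := by
  have t := Real.cos_sq_add_sin_sq α
  simp only [fd_rho hN α v, ← smul_eq_mul, ← map_smul, ← map_sub, ← map_add]
  constructor <;> congr 1 <;> funext l <;> rcases l with l | l | l <;>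
    simp [rho, Pi.single_apply] <;> split_ifs <;> nlinarith

end inv

variable {D : Dm I M (Option κ) X Q} {θ : ∀ i, X i → M → ℝ} {ν : J → Measure M} {τ : J → M → ℝ}
  {j : ℕ} [Finite J]

theorem trig {C S : ℝ} (h : C ^ 2 + S ^ 2 = 1) (p q u v a b : ℝ) :
    p - q = C * (a + (C * (p - C * a - (q - S * b)) + S * (u - S * a + (v - C * b)))) -
      S * (b + (C * (u - S * a + (v - C * b)) - S * (p - C * a - (q - S * b)))) ∧
    u + v = S * (a + (C * (p - C * a - (q - S * b)) + S * (u - S * a + (v - C * b)))) +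
      C * (b + (C * (u - S * a + (v - C * b)) - S * (p - C * a - (q - S * b)))) :=
  ⟨by linear_combination (-(p - C * a - (q - S * b))) * h,
    by linear_combination (-(u - S * a + (v - C * b))) * h⟩

theorem Ch.wn {δ : ℝ} (h : WZ D δ ν τ) (hθ : Rw D θ τ) (hj : 7 ≤ j) {f g : ∀ i, Q i → M → ℝ}
    (hf : Ch D j θ f g) : Ch D j θ (fun i y x => wn (ν i) (τ i) δ (f i y) (τ i x + 0))
      fun i y x => wn (ν i) (τ i) δ (g i y) (τ i x + 0) := by
  obtain ⟨a, b, ha, hb, e⟩ := hf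
  have h4 : 4 ≤ j := by omega
  have t2 : ContDiff ℝ ∞ fun s : ℝ => 2 * s := contDiff_const.mul contDiff_id
  have C := Real.contDiff_cos.comp t2
  have S := Real.contDiff_sin.comp t2
  have P := (h.comm hθ C 0 hj hj ha).sub h4 (h.comm hθ S 0 hj hj hb)
  have P' := (h.comm hθ S 0 hj hj ha).add (h.comm hθ C 0 hj hj hb)
  have uC := hθ.us.comp C
  have uS := hθ.us.comp S
  have w : ∀ {g : ℝ → ℝ}, ContDiff ℝ ∞ g → ∀ {a : ∀ i, Q i → M → ℝ}, D.A0 False j a → ∀ i y t,
      Integrable (fun z => Dgr80.b δ (τ i z - t) • (g (θ i (D.pt i y) z) * a i y z)) (ν i) :=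
    fun hg _ ha i y => (h.wi ((hθ.us.comp hg).sz.bil (ContinuousLinearMap.mul ℝ ℝ) ha.sz) i y).int
      h.we.δ0
  refine ⟨_, _, (h.a0 0 h4 h4 ha).add ((P.us_smul h4 uC).add (P'.us_smul h4 uS)),
    (h.a0 0 h4 h4 hb).add ((P'.us_smul h4 uC).sub h4 (P.us_smul h4 uS)), fun i y x => ?_⟩
  have e1 := integral_sub (w C ha i y (τ i x + 0)) (w S hb i y (τ i x + 0))
  have e2 := integral_add (w S ha i y (τ i x + 0)) (w C hb i y (τ i x + 0))
  have t := Real.cos_sq_add_sin_sq (2 * θ i (D.pt i y) x)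
  simp only [← smul_sub, ← smul_add, comp_apply, ← (e i y _).1, ← (e i y _).2] at e1 e2
  simp only [Dgr80.wn, comp_apply, smul_eq_mul] at e1 e2 ⊢
  rw [e1, e2]
  exact trig t _ _ _ _ _ _

theorem Ch.cmul {f g : ∀ i, Q i → M → ℝ} (hj : 4 ≤ j) (hf : Ch D j θ f g) (t : ℝ) :
    Ch D j θ (fun i y x => t * f i y x) fun i y x => t * g i y x :=
  let ⟨_, _, ha, hb, e⟩ := hf
  ⟨_, _, ha.clm hj (t • ContinuousLinearMap.id ℝ ℝ), hb.clm hj (t • ContinuousLinearMap.id ℝ ℝ),
    fun i y x => by simp only [(e i y x).1, (e i y x).2, smul_apply, ContinuousLinearMap.id_apply,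
      smul_eq_mul]; constructor <;> ring⟩

variable {μ : MF M (Option κ) lam J} {r n : ℕ} {c : CF D μ r}
  {B : J → Base M (Option κ) lam} {a : ∀ i, Q i → Option κ → M → En lam}
  {K : ∀ i y, Nk DY (B i) ⟨c.F i y, a i y⟩} {N : ND Y lam}

theorem rt_sum {n : ℕ} {Jc : An.En (Fin n)} {α : ℝ} {ι : Type} [Fintype ι] (u : ι → Eu (Fin n)) :
    rt Jc α (∑ k, u k) = ∑ k, rt Jc α (u k) := map_sum (rL Jc α) _ _

theorem p2_pg {ι : Type} [Fintype ι] (m : Md M ι lam) (B : Base M ι lam) (x : M) (d : ι × ι → ℝ)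
    (g : ι × ι → m.A) : m.p2 B x (WithLp.toLp 2 fun s => d s • g s) =
      m.p2 B x (WithLp.toLp 2 fun s => d s • m.pg x (g s)) :=
  PiLp.ext fun s => by simp [Md.p2, idx]

theorem dcut_one {χ : M → ℝ} (h : ∀ x, χ x = 1) (d : Den M (Option κ) lam r) : dcut χ d = d := by
  simp only [dcut, h, one_mul, mul_one]

variable (K N j θ ν τ) in
/-- the hypotheses on the cylinder -/
structure CH : Prop where
  nh : NH K N.δ j
  nc : NC K j
  rh : RH j c θ
  ok : N.OK DY
  wz : WZ D N.δ ν τ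
  rw : Rw D θ τ
  τ : ∀ i y, (K i y).τ = τ i
  μ : ∀ i y, (c.F i y).μ = ν i
  cut : ∀ i y d s, (K i y).cut d s = 1

namespace CH
variable (h : CH θ ν τ j K N)
include h

theorem χ (i : J) (y : Q i) (x : M) : (K i y).χ x = 1 := h.cut i y _ _

theorem nh' : NH (c := cW c θ) K N.δ j := ⟨h.nh.ext, h.nh.exl, h.nh.dτ, h.nh.cut, h.nh.win⟩

theorem d0 (k : N.J0) : D0 j c θ fun i y => (N.dg (K i y)).d (.inl k) := by
  have := h.ok.d0 k
  have o := h.rh.o
  cases e : N.d0 k with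
  | sw u v =>
    rw [e] at this
    simpa only [ND.dg, Sum.elim_inl, e, Nk.den, dcut_one (h.χ _ _)] using
      h.rh.d0 (h.nh'.sw h.rh.ok this.1) (h.nh'.sw h.rh.ok this.2)
  | cy d w d' w' =>
    rw [e] at this
    simpa only [ND.dg, Sum.elim_inl, e, Nk.den, dcut_one (h.χ _ _)] using d0_sed (θ := θ) o
      (o.sedWd (h.nc d this.1) (h.nh.las o this.2.1))
      (o.sedWd (h.nc d' this.2.2.1) (h.nh.las o this.2.2.2))
      (fun _ _ _ => (si_cyc _).wd _) fun _ _ _ => (si_cyc _).wd _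

theorem d2 (k : N.J2) : D2 j c θ (fun i y => (N.dg (K i y)).d (.inr (.inl k)))
    fun i y => (N.dg (K i y)).d (.inr (.inr k)) := by
  obtain ⟨h1, h2, h3⟩ := h.ok.d2 k
  simpa only [ND.dg, Sum.elim_inl, Sum.elim_inr, Nk.dre, Nk.dim, dcut_one (h.χ _ _)] using
    h.rh.d2 (h.nh.exl _ h1) (h.nh'.sw h.rh.ok h2) (h.nh'.sw h.rh.ok h3)

theorem β_eq (k : N.J) (i : J) (y : Q i) (x : M) :
    (N.dg (K i y)).β (c.F i y) (cR c θ i y) k ((K i y).τ x) = (Nka63.vY DY)⁻¹ *
      wn (ν i) (τ i) N.δ (fun z => fderiv ℝ (fun x => N.φ (N.cx x)) (fun l => wn (ν i) (τ i) N.δ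
        (((N.dg (K i y)).d l).h (cR c θ i y)) (τ i z + 0)) (Pi.single k 1)) (τ i x + 0) := by
  have := cv_eq (K i y) N.δ (fun t => fderiv ℝ (fun x => N.φ (N.cx x))
    ((N.dg (K i y)).Iv (c.F i y) (cR c θ i y) t) (Pi.single k 1)) x
  rw [h.χ, mul_one, mul_one] at this
  refine this.trans ?_
  have e : ∀ t, (N.dg (K i y)).Iv (c.F i y) (cR c θ i y) t = fun l => wn (ν i) (τ i) N.δ
      (((N.dg (K i y)).d l).h (cR c θ i y)) t := fun t => by rw [← h.τ i y, ← h.μ i y]; rfl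
  simp only [h.cut, one_mul, e, h.τ, h.μ, add_zero]

theorem β : (∀ k, D.A0 False j fun i y x =>
    (N.dg (K i y)).β (c.F i y) (cR c θ i y) (.inl k) ((K i y).τ x)) ∧ ∀ k, Ch D j θ
      (fun i y x => (N.dg (K i y)).β (c.F i y) (cR c θ i y) (.inr (.inl k)) ((K i y).τ x))
      fun i y x => (N.dg (K i y)).β (c.F i y) (cR c θ i y) (.inr (.inr k)) ((K i y).τ x) := by
  have o := h.rh.o
  choose p q hp hq e using fun k => Ch.wn h.wz h.rw o.h7 (h.d2 k).h
  let v : N.J → ∀ i, Q i → M → ℝ := Sum.elim (fun k i y x => wn (ν i) (τ i) N.δ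
    (((N.dg (K i y)).d (.inl k)).h (cR c θ i y)) (τ i x + 0)) (Sum.elim p q)
  have hv : ∀ k, D.A0 False j (v k) := fun k => by
    rcases k with k | k | k
    exacts [h.wz.a0 0 o.h4 o.h4 (h.d0 k).h, hp k, hq k]
  have g := fun k : N.J => A0.compF o.hj ((sm_fderiv (h.ok.sm.comp (contDiff_cx N))).clm_apply
    (contDiff_const (c := Pi.single k 1))) hv
  have ev : ∀ i y z, (fun l => wn (ν i) (τ i) N.δ (((N.dg (K i y)).d l).h (cR c θ i y))
      (τ i z + 0)) = rho N (2 * θ i (D.pt i y) z) fun l => v l i y z := fun i y z => funext fun l => by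
    rcases l with l | l | l
    exacts [rfl, (e l i y z).1, (e l i y z).2]
  simp only [h.β_eq, ev]
  refine ⟨fun k => ((h.wz.a0 0 o.h4 o.h4 (g (.inl k))).clm o.h4
    ((Nka63.vY DY)⁻¹ • ContinuousLinearMap.id ℝ ℝ)).congr fun i y x => ?_, fun k =>
    (Ch.wn h.wz h.rw o.h7 ⟨_, _, g (.inr (.inl k)), g (.inr (.inr k)), fun i y x =>
      fd2 h.ok _ _ k⟩).cmul o.h4 _⟩
  simp only [fd0 h.ok]
  rfl

theorem gA (e : Option κ) : D.A0 False j (V := μ.A) fun i y x =>
    μ.pg i x ((N.dg (K i y)).gA (c.F i y) (cR c θ i y) x e) :=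
  ((A0.fsum Finset.univ fun k _ => (h.d0 k).gA _ (h.β.1 k) e).add
    (A0.fsum Finset.univ fun k _ => (h.d2 k).gA _ _ (h.β.2 k) e)).congr fun i y x => by
      simp only [DG.gA, Fintype.sum_sum_type, PiLp.add_apply, map_add, WithLp.ofLp_sum,
        Finset.sum_apply, map_sum, Finset.sum_add_distrib]
      rfl

theorem gP : D.A0 False j (V := μ.V) fun i y x =>
    rt μ.Jc (-θ i (D.pt i y) x) ((N.dg (K i y)).gP (c.F i y) (cR c θ i y) x) :=
  ((A0.fsum Finset.univ fun k _ => (h.d0 k).gP _ (h.β.1 k)).add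
    (A0.fsum Finset.univ fun k _ => (h.d2 k).gP _ _ (h.β.2 k))).congr fun i y x => by
      simp only [DG.gP, Fintype.sum_sum_type, rt_add, rt_sum, Finset.sum_add_distrib]
      rfl

/-- the twisted Dirac row -/
theorem q1D (hB : UB D.P (μ.pp B)) (hp : ∀ i x, μ.Jc * μ.pp B i x = μ.pp B i x * μ.Jc) :
    D.A0 False j (V := μ.V) fun i y x =>
      rt μ.Jc (-θ i (D.pt i y) x) ((N.q1 (n := n) (K i y)).D (cR c θ i y) x) :=
  have o := h.rh.o
  ((A0.fsum Finset.univ fun e _ => (A0.smul o.lev o.h4 (h.nh.dτ e)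
    ((h.gP.app o.h4 hB).app o.h4 (o.ρ e))).aff).neg o.h4).congr fun i y x => by
      simp only [rt_comm (hp i x), rt_comm (h.rh.ρ i _ x), ← rt_smul]
      exact (map_neg (rL _ _) _).trans (congrArg _ (map_sum (rL _ _) _ _))

/-- the curvature row -/
theorem q1C (hB : UB D.P (μ.p2 B)) : D.A0 False j (V := Fm (Option κ × Option κ) μ.A)
    fun i y => (N.q1 (n := n) (K i y)).C (cR c θ i y) :=
  have o := h.rh.o
  (((A0.toLp o.h4 fun s => (A0.smul o.lev o.h4 (h.nh.dτ s.1) (h.gA s.2)).aff).app o.h4 hB).clm o.h4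
    ((-8 : ℝ) • ContinuousLinearMap.id ℝ _)).congr fun i _ x =>
      congrArg (fun v => (-8 : ℝ) • v) (p2_pg (μ.m i) (B i) x _ _)

end CH

end Crest.Agent.X212.Smt39
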