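import Crest.Agent.X212.Smt39.Win

/-! # Row 212, MS-AFT (helper39): the words of a rotated spinor -/

set_option autoImplicit false
set_option linter.unusedSectionVars false
set_option maxSynthPendingDepth 3
noncomputable section
open scoped Manifold ContDiff Topology InnerProductSpace
open MeasureTheory Set Function Filter

namespace Crest.Agent.X212.Smt39
open An Sob92 Prm93 Wz78 Dgr80 Mon62 Mon62.Dm Gla92
open Ell97 (UB)
open Eqv71 (Itw)
open Wrd81 (wd)

section alg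
variable {N : ℕ} {Jc T : En (Fin N)} {α β : ℝ} {u v : Eu (Fin N)}

/-- the rotation as an endomorphism -/
def rL (Jc : En (Fin N)) (α : ℝ) : En (Fin N) := Real.cos α • 1 + Real.sin α • Jc

theorem JJ (hJ : Jc * Jc = -1) (v : Eu (Fin N)) : Jc (Jc v) = -v :=
  congrArg (fun S : En (Fin N) => S v) hJ

theorem rt_rt (hJ : Jc * Jc = -1) : rt Jc α (rt Jc β v) = rt Jc (α + β) v := by
  simp only [rt, map_add, map_smul, JJ hJ, Real.cos_add, Real.sin_add]
  module

theorem rt_zero : rt Jc 0 v = v := by simp [rt]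

theorem rt_neg (hJ : Jc * Jc = -1) : rt Jc (-α) (rt Jc α v) = v := by
  rw [rt_rt hJ, neg_add_cancel, rt_zero]

theorem neg_rt (hJ : Jc * Jc = -1) : rt Jc α (rt Jc (-α) v) = v := by
  rw [rt_rt hJ, add_neg_cancel, rt_zero]

theorem inner_rt (hk : Skw Jc) : ⟪rt Jc α u, v⟫_ℝ = ⟪u, rt Jc (-α) v⟫_ℝ := by
  simp only [rt, inner_add_left, inner_add_right, real_inner_smul_left, real_inner_smul_right,
    hk u v, Real.cos_neg, Real.sin_neg]
  ring

theorem inner_rr (hJ : Jc * Jc = -1) (hk : Skw Jc) : ⟪rt Jc α u, rt Jc α v⟫_ℝ = ⟪u, v⟫_ℝ := by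
  rw [inner_rt hk, rt_neg hJ]

theorem norm_rt (hJ : Jc * Jc = -1) (hk : Skw Jc) : ‖rt Jc α u‖ ^ 2 = ‖u‖ ^ 2 := by
  rw [← real_inner_self_eq_norm_sq, inner_rr hJ hk, real_inner_self_eq_norm_sq]

theorem rt_comm (h : Jc * T = T * Jc) : T (rt Jc α v) = rt Jc α (T v) := by
  have : Jc (T v) = T (Jc v) := congrArg (fun S : En (Fin N) => S v) h
  simp only [rt, map_add, map_smul, this]

theorem rt_anti (h : T * Jc = -(Jc * T)) : T (rt Jc α v) = rt Jc (-α) (T v) := by
  have : T (Jc v) = -Jc (T v) := congrArg (fun S : En (Fin N) => S v) h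
  simp only [rt, map_add, map_smul, this, Real.cos_neg, Real.sin_neg, smul_neg, neg_smul]

theorem rt_add : rt Jc α (u + v) = rt Jc α u + rt Jc α v := map_add (rL Jc α) u v

theorem rt_smul (c : ℝ) : rt Jc α (c • v) = c • rt Jc α v := map_smul (rL Jc α) c v

theorem adj_comm (hk : Skw Jc) (h : Jc * T = T * Jc) :
    Jc * ContinuousLinearMap.adjoint T = ContinuousLinearMap.adjoint T * Jc :=
  ContinuousLinearMap.ext fun v => ext_inner_right ℝ fun w => by
    have : Jc (T w) = T (Jc w) := congrArg (fun S : En (Fin N) => S w) h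
    change ⟪Jc (ContinuousLinearMap.adjoint T v), w⟫_ℝ = ⟪ContinuousLinearMap.adjoint T (Jc v), w⟫_ℝ
    rw [hk, ContinuousLinearMap.adjoint_inner_left, ContinuousLinearMap.adjoint_inner_left, hk, this]

end alg

variable {E : Type} [NormedAddCommGroup E] [NormedSpace ℝ E] [FiniteDimensional ℝ E]
  [MeasurableSpace E] [BorelSpace E]
  {HM : Type} [TopologicalSpace HM] {I : ModelWithCorners ℝ E HM} [I.Boundaryless]
  {M : Type} [TopologicalSpace M] [ChartedSpace HM M] [IsManifold I ∞ M] [MeasurableSpace M]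
  [T2Space M] [BorelSpace M] [SecondCountableTopology M] {ι : Type} [Fintype ι]
  {lam : Type} [Fintype lam]

section gauge
variable {N : ℕ} {Jc : En (Fin N)} {F : Fr I M ι} {W : ι → M → En (Fin N)} {φ : M → ℝ}

variable (F Jc W φ) in
/-- the connection after the gauge transformation -/
def wr (a : ι) (x : M) : En (Fin N) := W a x + F.D a φ x • Jc

theorem sm_rL (hφ : Sm I φ) : Sm I fun x => rL Jc (φ x) :=
  ((Real.contDiff_cos.contMDiff.comp hφ).smul contMDiff_const).add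
    ((Real.contDiff_sin.contMDiff.comp hφ).smul contMDiff_const)

theorem bd_rL : ∃ C, ∀ x, ‖rL Jc (φ x)‖ ≤ C :=
  ⟨‖(1 : En (Fin N))‖ + ‖Jc‖, fun _ => (norm_add_le _ _).trans (add_le_add
    ((norm_smul_le _ _).trans (mul_le_of_le_one_left (norm_nonneg _) (Real.abs_cos_le_one _)))
    ((norm_smul_le _ _).trans (mul_le_of_le_one_left (norm_nonneg _) (Real.abs_sin_le_one _))))⟩

theorem itw_rL (hJ : Jc * Jc = -1) (hφ : Sm I φ) (hW : ∀ a x, Jc * W a x = W a x * Jc) (x : M) :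
    Itw I F.e (wr Jc F W φ) W (fun x => rL Jc (φ x)) x := fun a => by
  have d : HasFDerivAt (rL Jc) ((ContinuousLinearMap.id ℝ ℝ).smulRight
      (-Real.sin (φ x) • (1 : En (Fin N)) + Real.cos (φ x) • Jc)) (φ x) :=
    (((Real.hasDerivAt_cos _).smul_const _).add ((Real.hasDerivAt_sin _).smul_const _)).hasFDerivAt
  rw [Sob92.dv_comp ((hφ x).mdifferentiableAt (by simp)) d]
  refine ContinuousLinearMap.ext fun v => ?_
  change F.D a φ x • (-Real.sin (φ x) • v + Real.cos (φ x) • Jc v) + W a x (rt Jc (φ x) v) =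
    rt Jc (φ x) (W a x v + F.D a φ x • Jc v)
  rw [rt_comm (hW a x), rt_add, rt_smul, add_comm]
  simp only [rt, JJ hJ]
  module

variable (F Jc W φ) in
/-- the data of the gauge transformation -/
structure GT : Prop where
  sq : Jc * Jc = -1
  sk : Skw Jc
  bp : Mp86.Bumps I F.e F.dv
  mc : Mp86.Mc I W
  cm : ∀ a x, Jc * W a x = W a x * Jc
  sm : Sm I φ

namespace GT
variable (h : GT Jc F W φ)
include h

theorem mc' : Mp86.Mc I (wr Jc F W φ) :=
  ⟨fun a => (h.mc.sm a).add ((F.sm_D h.sm a).smul contMDiff_const), fun a x v w => by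
    simp only [wr, add_apply, smul_apply, inner_add_left, inner_add_right, real_inner_smul_left,
      real_inner_smul_right, h.mc.sk a x v w, h.sk v w]
    ring⟩

theorem res (s : M → Eu (Fin N)) : F.res W (fun x => rt Jc (φ x) (s x)) =
    fun x => rt Jc (φ x) (F.res (wr Jc F W φ) s x) := by
  have e : wr Jc F (wr Jc F W φ) (fun x => -φ x) = W := funext fun a => funext fun x => by
    have : F.D a (fun x => -φ x) x = -F.D a φ x :=
      Mp86.dv_clm (-ContinuousLinearMap.id ℝ ℝ) ((h.sm x).mdifferentiableAt (by simp))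
    rw [wr, wr, this, neg_smul, add_neg_cancel_right]
  refine Mp86.res_map (T := fun x => rL Jc (φ x)) (T' := fun x => rL Jc (-φ x)) h.bp h.mc'.sm h.mc
    (sm_rL h.sm) (sm_rL h.sm.neg) bd_rL (bd_rL (φ := fun x => -φ x)) (itw_rL h.sq h.sm h.cm)
    (fun x => ?_) fun x => rt_neg h.sq
  have := itw_rL (F := F) (W := wr Jc F W φ) (φ := fun x => -φ x) h.sq h.sm.neg (fun a x => by
    rw [wr, mul_add, add_mul, h.cm, mul_smul_comm, smul_mul_assoc]) x
  rwa [e] at this

theorem nab {s : M → Eu (Fin N)} (hs : Sm I s) (a : ι) (x : M) :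
    nab I F.e W a (fun x => rt Jc (φ x) (s x)) x = rt Jc (φ x) (nab I F.e (wr Jc F W φ) a s x) :=
  (itw_rL h.sq h.sm h.cm x).nab ((sm_rL h.sm x).mdifferentiableAt (by simp))
    ((hs x).mdifferentiableAt (by simp)) a

omit h in
variable (Jc) in
/-- complex linear letters -/
def Cx (w : List (SL M (Eu (Fin N)))) : Prop := ∀ T, .op T ∈ w → ∀ x, Jc * T x = T x * Jc

omit h in
theorem Cx.tail {t : SL M (Eu (Fin N))} {w : List (SL M (Eu (Fin N)))} (h : Cx Jc (t :: w)) :
    Cx Jc w := fun T e => h T (List.mem_cons_of_mem _ e)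

theorem wd (s : M → Eu (Fin N)) : ∀ {w : List (SL M (Eu (Fin N)))}, Cx Jc w →
    wd (sl F W) (fun x => rt Jc (φ x) (s x)) w =
      fun x => rt Jc (φ x) (wd (sl F (wr Jc F W φ)) s w x)
  | [], _ => rfl
  | .op T :: w, e => by
    rw [Wrd81.wd_cons, Wrd81.wd_cons, wd s e.tail]
    exact funext fun x => rt_comm (e T List.mem_cons_self x)
  | .G :: w, e => by
    rw [Wrd81.wd_cons, Wrd81.wd_cons, wd s e.tail]
    exact h.res _

theorem slT (l : M → Eu (Fin N)) {T : M → En (Fin N)} (e : ∀ x, Jc * T x = T x * Jc) :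
    slT F W (.op T) (fun x => rt Jc (φ x) (l x)) =
      fun x => rt Jc (φ x) (slT F (wr Jc F W φ) (.op T) l x) :=
  funext fun x => rt_comm (adj_comm h.sk (e x))

theorem bk : ∀ {w : List (SL M (Eu (Fin N)))}, Cx Jc w → ∀ l : M → Eu (Fin N),
    bk F W w (fun x => rt Jc (φ x) (l x)) = fun x => rt Jc (φ x) (bk F (wr Jc F W φ) w l x)
  | [], _, _ => rfl
  | .op T :: w, e, l => by
    rw [Dgr80.bk, h.slT l (e T List.mem_cons_self), bk e.tail]; rfl
  | .G :: w, e, l => by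
    rw [Dgr80.bk, Dgr80.slT, h.res, bk e.tail]; rfl

theorem tp {ξ : HS (Fin N)} (hξ : Jc * opL ξ = opL ξ * Jc) (α : ℝ) (a b : Eu (Fin N)) :
    ⟪tp opL (rt Jc α a) (rt Jc α b), ξ⟫_ℝ = ⟪tp opL a b, ξ⟫_ℝ := by
  rw [inner_tp, inner_tp, rt_comm hξ, inner_rr h.sq h.sk]

theorem gc (s : M → Eu (Fin N)) (x : M) (a : ι) {ξ : HS (Fin N)} (hξ : Jc * opL ξ = opL ξ * Jc) :
    ∀ {w : List (SL M (Eu (Fin N)))}, Cx Jc w → ∀ l : M → Eu (Fin N),
      ⟪gc F W opL (fun x => rt Jc (φ x) (s x)) w (fun x => rt Jc (φ x) (l x)) x a, ξ⟫_ℝ =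
        ⟪gc F (wr Jc F W φ) opL s w l x a, ξ⟫_ℝ
  | [], _, _ => rfl
  | .op T :: w, e, l => by
    rw [Dgr80.gc, h.slT l (e T List.mem_cons_self), gc s x a hξ e.tail]; rfl
  | .G :: w, e, l => by
    simp only [Dgr80.gc, PiLp.sub_apply, inner_sub_left, h.wd s e.tail, h.res, gc s x a hξ e.tail,
      cur, h.nab (Mp86.sm_res _ _ _), inner_add_left, h.tp hξ]

end GT
end gauge

section cfg
variable {r : ℕ} {m : Md M ι lam} {F : Fr I M ι} {W : m.Cn} {Φ Ψ : M → m.V} {φ : M → ℝ}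
  {z : EuclideanSpace ℂ (Fin r)}

variable (m W Φ φ z) in
/-- the rotated configuration -/
abbrev c1 : Cfg M ι lam r := ⟨m, W, fun x => rt m.J (φ x) (Φ x), z⟩

variable (m F W Φ φ z) in
/-- the gauge transformed configuration -/
abbrev c2 : Cfg M ι lam r := ⟨m, wr m.J F W φ, Φ, z⟩

theorem ltS12 : ltS F (c1 m W Φ φ z) = ltS F (c2 m F W Φ φ z) := funext fun t => by cases t <;> rfl

theorem cx_lt (hρ : ∀ a x, m.J * m.ρ a x = m.ρ a x * m.J) (u : SW M) :
    GT.Cx m.J (u.map (ltS F (c2 m F W Φ φ z))) := fun T e x => by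
  obtain ⟨t, -, e⟩ := List.mem_map.1 e
  cases t with
  | mul f => cases e; simp
  | cl g => cases e; simp only [Finset.mul_sum, Finset.sum_mul, mul_smul_comm, smul_mul_assoc, hρ]
  | im => cases e; rfl
  | G => cases e

variable (h : GT m.J F W φ) (hρ : ∀ a x, m.J * m.ρ a x = m.ρ a x * m.J)
include h

theorem nP12 : nP (c1 m W Φ φ z) = fun x => rt m.J (φ x) (nP (c2 m F W Φ φ z) x) :=
  funext fun x => by simp only [nP, norm_rt h.sq h.sk, rt_smul]

theorem dn12 (l : M → m.V) (x : M) : dn (c1 m W Φ φ z) (fun x => rt m.J (φ x) (l x)) x =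
    rt m.J (φ x) (dn (c2 m F W Φ φ z) l x) := by
  simp only [Dgr80.dn, norm_rt h.sq h.sk, inner_rr h.sq h.sk, sub_eq_add_neg, ← neg_smul, rt_add, rt_smul]

include hρ

theorem nw12 (u : SW M) :
    nw F (c1 m W Φ φ z) u = fun x => rt m.J (φ x) (nw F (c2 m F W Φ φ z) u x) := by
  rw [nw_eq, nw_eq, nP12 h, ltS12]
  exact h.wd _ (cx_lt hρ u)

theorem swP12 (u : SW M) (l : M → m.V) (x : M) :
    Dgr80.swP F (c1 m W Φ φ z) u (fun x => rt m.J (φ x) (l x)) x =
      rt m.J (φ x) (Dgr80.swP F (c2 m F W Φ φ z) u l x) := by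
  rw [Dgr80.swP, Dgr80.swP, ltS12, ← dn12 h]
  exact congrArg (fun l => Dgr80.dn (c1 m W Φ φ z) l x) (h.bk (cx_lt hρ u) l)

theorem swA12 (u : SW M) (l : M → m.V) (x : M) (a : ι) :
    m.pg x (swA F (c1 m W Φ φ z) u (fun x => rt m.J (φ x) (l x)) x a) =
      m.pg x (swA F (c2 m F W Φ φ z) u l x a) := by
  rw [← sub_eq_zero, ← map_sub]
  refine pg_eq_zero fun ξ hξ => ?_
  rw [real_inner_comm, inner_sub_left, sub_eq_zero, swA, swA, nP12 h, ltS12]
  exact h.gc _ x a hξ.2.2.1 (cx_lt hρ u) l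

end cfg

end Crest.Agent.X212.Smt39
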