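import Crest.Agent.X212.Mon62.NkZ
import Crest.Agent.X212.Mon62.Pb
import Crest.Agent.X212.Gla92.US

/-! # Row 212, MS-SMT (helper39): affine families with scalar coefficients -/

set_option autoImplicit false
set_option linter.unusedSectionVars false
set_option maxSynthPendingDepth 3
noncomputable section
open scoped Manifold ContDiff Topology InnerProductSpace
open MeasureTheory Set Function Filter

namespace Crest.Agent.X212.Smt39
open An Sob92 Prm93 Wz78 Dgr80 Mon62 Mon62.Dm Gla92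
open Ell97 (UB)
open Wrd81 (wd)

variable {E : Type} [NormedAddCommGroup E] [NormedSpace ℝ E] [FiniteDimensional ℝ E]
  [MeasurableSpace E] [BorelSpace E]
  {HM : Type} [TopologicalSpace HM] {I : ModelWithCorners ℝ E HM} [I.Boundaryless]
  {M : Type} [TopologicalSpace M] [ChartedSpace HM M] [IsManifold I ∞ M]
  [MeasurableSpace M] [T2Space M] [BorelSpace M] [SecondCountableTopology M] {ι : Type} [Fintype ι]
  {lam : Type} [Fintype lam]
  {J : Type} {X Y : J → Type} [∀ i, NormedAddCommGroup (X i)] [∀ i, NormedSpace ℝ (X i)]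
  {D : Dm I M ι X Y}
  {U V W : Type} [NormedAddCommGroup U] [InnerProductSpace ℝ U] [CompleteSpace U]
  [NormedAddCommGroup V] [InnerProductSpace ℝ V] [CompleteSpace V]
  [NormedAddCommGroup W] [InnerProductSpace ℝ W] [CompleteSpace W]

variable (D) in
/-- finite sums of affine families with coefficients that depend on the point of the model -/
inductive A2 (j : ℕ) : (∀ i, Y i → M → V) → Prop
  | sm {γ : ∀ i, Y i → ℝ} {u} : D.Sc γ → D.A0 False j u → A2 j fun i y x => γ i y • u i y x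
  | add {u v} : A2 j u → A2 j v → A2 j fun i y x => u i y x + v i y x

variable {j l : ℕ} {u u' : ∀ i, Y i → M → V} {v : ∀ i, Y i → M → W} {ε : Prop}

theorem sz_sc {N : Type} [NormedAddCommGroup N] [NormedSpace ℝ N] {γ : ∀ i, Y i → N}
    (h : D.Sc γ) : D.Sz fun i y _ => γ i y :=
  let ⟨_, h1, h2⟩ := h; (us_par h1).sz.congr fun i y _ => h2 i y

/-- pure families -/
theorem pure_sub {b : J → M → V} {δ : ∀ i, X i → D.H V j i} (h : D.Sz u) (hb : UB D.P b)
    (hδ : UC D.toRg δ) (e : ∀ i y x, u i y x = b i x + D.vl (δ i (D.pt i y)) x) :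
    D.A0 True j fun i y x => u i y x - b i x :=
  A0.of_pure ((h.add ((Sz.fixed hb).clm (-ContinuousLinearMap.id ℝ V))).congr fun _ _ _ =>
    sub_eq_add_neg _ _) hδ fun i y x => by rw [e, add_sub_cancel_left]

theorem a1_congr (h : D.A1 j u) (e : ∀ i y x, u' i y x = u i y x) : D.A1 j u' := by
  obtain rfl : u' = u := funext fun i => funext fun y => funext (e i y)
  exact h

theorem a1_add (h : D.A1 j u) (h' : D.A1 j u') : D.A1 j fun i y x => u i y x + u' i y x :=
  let ⟨_, a, b⟩ := h; let ⟨_, c, d⟩ := h'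
  ⟨_, us_add a c, (b.add d).congr fun _ _ _ => add_sub_add_comm _ _ _ _⟩

/-- Nemytskii operators on `A1` -/
theorem a1_comp [FiniteDimensional ℝ V] (hj : 8 ≤ j) {g : V → W} (hg : ContDiff ℝ ∞ g)
    (h : D.A1 j u) : D.A1 j fun i y x => g (u i y x) := by
  have s := h.sz
  obtain ⟨f, h1, h2⟩ := h
  obtain ⟨δ, d1, d2⟩ := h2.pure
  have h3 := h1.comp hg
  refine ⟨_, h3, A0.of_pure (((⟨fun i y => Cb_nem hg (s.cb i y), ub_nem hg s.ub⟩ :
    D.Sz fun i y x => g (u i y x)).add (h3.sz.clm (-ContinuousLinearMap.id ℝ W))).congr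
      fun _ _ _ => sub_eq_add_neg _ _)
    ((ug_nem hj (ContinuousLinearMap.id ℝ V) hg).cmp ((h1.uc j).prod d1)) fun i y x => ?_⟩
  rw [Dm.vl, val_nem (D.sup i) hj hg, fn_toB (h1.cb i _ (D.mem i y)), ContinuousLinearMap.id_apply]
  have := congrFun (d2 i y) x
  rw [Dm.vl] at this
  rw [← this, add_sub_cancel]

/-- pure times `A1` is pure -/
theorem a1_smul (hj : 7 ≤ j) {f : ∀ i, Y i → M → ℝ} (hf : D.A0 True j f) (h : D.A1 j u) :
    D.A0 True j fun i y x => f i y x • u i y x :=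
  (h.toMp (ContinuousLinearMap.lsmul ℝ ℝ (E := V)).flip hj).app (by omega) le_rfl hf

namespace A2

theorem congr (h : A2 D j u) (e : ∀ i y x, u' i y x = u i y x) : A2 D j u' := by
  obtain rfl : u' = u := funext fun i => funext fun y => funext (e i y)
  exact h

theorem of (h : D.A0 ε j u) : A2 D j u :=
  (sm (Sc.const 1) h.aff).congr fun _ _ _ => (one_smul _ _).symm

theorem sz (h : A2 D j u) : D.Sz u := by
  induction h with
  | sm a b => exact (sz_sc a).bil (ContinuousLinearMap.lsmul ℝ ℝ) b.sz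
  | add _ _ a b => exact a.add b

theorem smulc {γ : ∀ i, Y i → ℝ} (hγ : D.Sc γ) (h : A2 D j u) :
    A2 D j fun i y x => γ i y • u i y x := by
  induction h with
  | sm a b => exact (sm (hγ.bil (ContinuousLinearMap.mul ℝ ℝ) a) b).congr fun _ _ _ =>
      (mul_smul _ _ _).symm
  | add _ _ a b => exact (a.add b).congr fun _ _ _ => smul_add _ _ _

/-- linear operators -/
theorem lin {T : ∀ i, Y i → (M → V) → M → W}
    (h0 : ∀ u, D.A0 False j u → D.A0 False l fun i y => T i y (u i y))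
    (h1 : ∀ i y (c : ℝ) a, T i y (fun x => c • a x) = fun x => c • T i y a x)
    (h2 : ∀ i y a b, (D.P i).Cb a → (D.P i).Cb b →
      T i y (fun x => a x + b x) = fun x => T i y a x + T i y b x) (h : A2 D j u) :
    A2 D l fun i y => T i y (u i y) := by
  induction h with
  | sm a b => exact (sm a (h0 _ b)).congr fun i y => congrFun (h1 i y _ _)
  | add c d a b => exact (a.add b).congr fun i y => congrFun (h2 i y _ _ (c.sz.cb i y) (d.sz.cb i y))

theorem ap {T : ∀ i, Y i → M → CL V W} (hT : D.Ap j T) (h : A2 D j u) :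
    A2 D j fun i y x => T i y x (u i y x) :=
  h.lin (T := fun i y a x => T i y x (a x)) (hT _) (fun _ _ _ _ => funext fun _ => map_smul _ _ _)
    fun _ _ _ _ _ _ => funext fun _ => map_add _ _ _

theorem app (hj : 4 ≤ j) {T : J → M → CL V W} (hT : UB D.P T) (h : A2 D j u) :
    A2 D j fun i y x => T i x (u i y x) := h.ap (Ap.fixed hj hT)

theorem bil (β : CL V (CL W U)) (hj : 7 ≤ j) (h : A2 D j u) (h' : A2 D j v) :
    A2 D j fun i y x => β (u i y x) (v i y x) := by
  induction h with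
  | sm a b => exact ((h'.ap (b.ap β hj)).smulc a).congr fun _ _ _ => by simp only [map_smul]; rfl
  | add _ _ a b => exact (a.add b).congr fun _ _ _ => by simp only [map_add]; rfl

theorem smul (hj : 7 ≤ j) {f : ∀ i, Y i → M → ℝ} (hf : A2 D j f) (h : A2 D j u) :
    A2 D j fun i y x => f i y x • u i y x := hf.bil (ContinuousLinearMap.lsmul ℝ ℝ) hj h

theorem a1 (h : A2 D j u) : D.A1 j u := by
  induction h with
  | sm a b =>
    obtain ⟨c, δ, h1, -, h3, h4⟩ := b.ex
    have p := (pure_sub b.sz h1 h3 h4).smulc (ε := True) a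
    obtain ⟨γ, g1, g2⟩ := a
    exact ⟨_, us_smul (us_par g1) (US.fixed h1), p.congr fun i y x => by simp only [g2, smul_sub]⟩
  | add _ _ a b => exact a1_add a b

/-- a pure coefficient times a normalised family -/
theorem nrm [FiniteDimensional ℝ V] (hj : 8 ≤ j) {f : ∀ i, Y i → M → ℝ} (hf : D.A0 True j f)
    (h : A2 D j u) : D.A0 True j fun i y x => f i y x • nrm (u i y x) :=
  a1_smul (by omega) hf (a1_congr (a1_comp hj (g := fun v : V => isq (‖v‖ ^ 2) • v)
    ((contDiff_isq.comp (contDiff_norm_sq ℝ)).smul contDiff_id) h.a1) fun _ _ _ => by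
      rw [isq_eq (sq_nonneg _)]; rfl)

variable {G : ∀ i, X i → Fr I M ι} {A : ∀ i, Y i → ι → M → CL V V} (hj : 8 ≤ j) (hF : D.FF G)
  (hB : D.RB V G) (hE : D.RE V G) (hA : ∀ c, D.Mul j fun i y => A i y c)
  (hs : ∀ i y c x, Skew (A i y c x))
include hj hF hB hE hA hs

theorem sl {L : ∀ i, Y i → SL M V} (hL : D.SLk j L) (h : A2 D j u) :
    A2 D j fun i y => sl (G i (D.pt i y)) (A i y) (L i y) (u i y) := by
  have e := Eng.of hj hF hB hE hA hs
  have m : ∀ i y, Mp86.Mc I (A i y) := fun i y => ⟨fun a => (hA a).sz.sm i y, hs i y⟩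
  have x : ∀ i y s, (D.P i).Cb s → ∃ u, (G i (D.pt i y)).IsRes (A i y) s u := fun i y s h =>
    (hE.ex i y _ s (fun c => (hA c).sz.cb i y) (hs i y) h).imp fun _ => And.left
  rcases hL with ⟨T, rfl, h1, -⟩ | rfl
  · exact h.ap h1
  · exact h.lin (T := fun i y => (G i (D.pt i y)).res (A i y)) (fun _ a => e.low (e.res a))
      (fun i y => Mp86.res_smul (hF.bump i y) (m i y))
      fun i y a b c d => Mp86.res_add (hF.bump i y) (m i y) (x i y a c) (x i y b d)

theorem wd {w : ∀ i, Y i → List (SL M V)} (hw : Fa (D.SLk j) w) (h : A2 D j u) :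
    A2 D j fun i y => wd (Dgr80.sl (G i (D.pt i y)) (A i y)) (u i y) (w i y) := by
  induction hw with
  | nil => exact h
  | cons ht _ ih => exact ih.sl hj hF hB hE hA hs ht

end A2

section cf
variable {μ : MF M ι lam J} {r : ℕ} {κ : CF D μ r} (h : κ.OK ε j)
include h

theorem wdV {w : ∀ i, Y i → SW M} (hw : Fa (κ.LtY j) w) {s : ∀ i, Y i → M → μ.V}
    (hs : A2 D j s) : A2 D j (V := μ.V) fun i y => wd ((κ.c i y).lt (κ.F i y)) (s i y) (w i y) :=
  (hs.wd h.hj h.F h.bV h.eV h.mulV h.sk (h.ltS hw)).congr fun i y =>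
    congrFun (lt_eq (κ.F i y) (κ.c i y) _ _)

theorem wdA {w : ∀ i, Y i → List (La M)} (hw : Fa (D.LaY j) w) {s : ∀ i, Y i → M → μ.A}
    (hs : A2 D j s) : A2 D j (V := μ.A) fun i y => wd ((κ.c i y).la (κ.F i y)) (s i y) (w i y) :=
  (hs.wd h.hj h.F h.bA h.eA h.mulA (fun i y c x => adc_skw (h.sk i y c x)) (h.laS hw)).congr
    fun i y => congrFun (la_eq (κ.F i y) (κ.c i y) _ _)

theorem qA {a b : ∀ i, Y i → M → μ.V} (ha : A2 D j a) (hb : A2 D j b) :
    A2 D j (V := μ.A) fun i y x => (μ.m i).q x (a i y x) (b i y x) :=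
  ((ha.bil rkL h.h7 hb).app h.h4 h.pg).congr fun _ _ _ => by rw [rkL_apply]; rfl

theorem wedge {g g' : ∀ i, Y i → M → ℝ} (hg : κ.Cd j g) (hg' : κ.Cd j g')
    {ξ : ∀ i, Y i → M → μ.A} (hξ : A2 D j ξ) :
    A2 D j fun i y x => (WithLp.toLp 2 fun s : ι × ι =>
      ((κ.F i y).D s.1 (g i y) x * (κ.F i y).D s.2 (g' i y) x) • ξ i y x : Fm (ι × ι) μ.A) :=
  hξ.lin (T := fun i y a x => (WithLp.toLp 2 fun s : ι × ι =>
      ((κ.F i y).D s.1 (g i y) x * (κ.F i y).D s.2 (g' i y) x) • a x : Fm (ι × ι) μ.A))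
    (fun _ => h.wedge hg hg') (fun _ _ _ _ => funext fun _ => PiLp.ext fun _ => smul_comm _ _ _)
    fun _ _ _ _ _ _ => funext fun _ => PiLp.ext fun _ => smul_add _ _ _

end cf

end Crest.Agent.X212.Smt39
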