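import Crest.Agent.X212.Smt39.Rot

/-! # Row 212, MS-SMT (helper39): the terms `q2` at a rotated spinor -/

set_option autoImplicit false
set_option linter.unusedSectionVars false
set_option maxSynthPendingDepth 3
noncomputable section
open scoped Manifold ContDiff Topology InnerProductSpace
open MeasureTheory Set Function Filter

namespace Crest.Agent.X212.Smt39
open An Sob92 Prm93 Wz78 Dgr80 Nd18 Mon62 Mon62.Dm Gla92
open Ell97 (UB)

variable {E3 : Type} [NormedAddCommGroup E3] [NormedSpace ℝ E3] [FiniteDimensional ℝ E3]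
  [MeasurableSpace E3] [BorelSpace E3]
  {H3 : Type} [TopologicalSpace H3] {I3 : ModelWithCorners ℝ E3 H3} [I3.Boundaryless]
  {Y : Type} [TopologicalSpace Y] [ChartedSpace H3 Y] [IsManifold I3 ∞ Y] [T2Space Y]
  [MeasurableSpace Y] [BorelSpace Y] [SecondCountableTopology Y] [CompactSpace Y]
  {κ : Type} [Fintype κ] {lam : Type} [Fintype lam]
  {E : Type} [NormedAddCommGroup E] [NormedSpace ℝ E] [FiniteDimensional ℝ E]
  [MeasurableSpace E] [BorelSpace E]
  {HM : Type} [TopologicalSpace HM] {I : ModelWithCorners ℝ E HM} [I.Boundaryless]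
  {M : Type} [TopologicalSpace M] [ChartedSpace HM M] [IsManifold I ∞ M] [MeasurableSpace M]
  [T2Space M] [BorelSpace M] [SecondCountableTopology M] {DY : YD I3 Y κ lam}
  {J : Type} {X Q : J → Type} [∀ i, NormedAddCommGroup (X i)] [∀ i, NormedSpace ℝ (X i)]

section ang
variable {ι : Type} [Fintype ι] {D : Dm I M ι X Q}

variable (D) in
/-- angles which are locally `0` or a parameter outside a compact region -/
structure Ro (θ : ∀ i, X i → M → ℝ) : Prop where
  us : D.US θ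
  ex : ∃ (ζ χ : J → M → ℝ) (t : ∀ i, X i → ℝ), (∀ l, 4 ≤ l → D.A0 True l fun i _ => ζ i) ∧
    UB D.P χ ∧ UC D.toRg t ∧ ∀ i v x, ζ i x ≠ 1 → (θ i v =ᶠ[𝓝 x] fun _ => χ i x * t i v) ∧
      (χ i x = 0 ∨ χ i x = 1)

variable {θ : ∀ i, X i → M → ℝ} {l : ℕ} {g : ℝ → ℝ}

theorem pure_cut (hl : 4 ≤ l) {f : ∀ i, X i → M → ℝ} (hf : D.US f) {ζ : J → M → ℝ}
    (hζ : D.A0 True l fun i _ => ζ i) (h : ∀ i v x, ζ i x ≠ 1 → f i v x = 0) :
    D.A0 True l fun i y => f i (D.pt i y) :=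
  (hζ.us_smul hl hf).congr fun i y x => by
    by_cases e : ζ i x = 1
    · rw [e, smul_eq_mul, mul_one]
    · rw [h _ _ _ e, zero_smul]

theorem Ro.a2 (h : Ro D θ) (hl : 4 ≤ l) (hg : ContDiff ℝ ∞ g) :
    A2 D l fun i y x => g (θ i (D.pt i y) x) := by
  obtain ⟨ζ, χ, t, h1, h2, h3, h4⟩ := h.ex
  have s : D.Sc fun i y => g (t i (D.pt i y)) - g 0 :=
    (Sc.comp hg ⟨t, h3, fun _ _ => rfl⟩).add (Sc.const (-g 0))
  obtain ⟨γ, g1, g2⟩ := id s
  have p := pure_cut hl (f := fun i v x => g (θ i v x) + -((g (t i v) - g 0) • χ i x + g 0))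
    (us_add (h.us.comp hg) ((us_add (us_smul ((us_par h3).comp (hg.sub contDiff_const))
      (US.fixed h2)) (US.fixed (UB.const (g 0)))).clm (-ContinuousLinearMap.id ℝ ℝ))) (h1 l hl)
    fun i v x e => by
      obtain ⟨a, b⟩ := h4 i v x e
      rw [a.eq_of_nhds]
      rcases b with b | b <;> simp [b]
  exact ((A2.of p).add ((A2.sm s (A0.fixed h2)).add (A2.of (A0.fixed (UB.const (g 0)))))).congr
    fun i y x => (neg_add_cancel_right _ _).symm

theorem Ro.dG (h : Ro D θ) (hl : 4 ≤ l) (hg : ContDiff ℝ ∞ g) {G : ∀ i, X i → Fr I M ι}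
    (hF : D.FF G) (a : ι) :
    D.A0 True l fun i y => (G i (D.pt i y)).D a fun x => g (θ i (D.pt i y) x) := by
  obtain ⟨ζ, χ, t, h1, -, -, h4⟩ := h.ex
  exact pure_cut hl (us_dG hF (h.us.comp hg) a) (h1 l hl) fun i v x e =>
    (Mp86.dv_congr ((h4 i v x e).1.fun_comp g)).trans (Mp86.dv_const _)

/-- the rotation -/
def rt {N : ℕ} (Jc : En (Fin N)) (θ : ℝ) (v : Eu (Fin N)) : Eu (Fin N) :=
  Real.cos θ • v + Real.sin θ • Jc v

theorem cs_exp {N : ℕ} (Jc : En (Fin N)) (θ : ℝ) (v : Eu (Fin N)) :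
    cs Jc (Circle.exp θ) v = rt Jc θ v := by
  rw [cs, Circle.coe_exp, Complex.exp_ofReal_mul_I_re, Complex.exp_ofReal_mul_I_im, rt]

theorem rt_pure {N : ℕ} (Jc : En (Fin N)) (h : D.US θ) (hl : 4 ≤ l) {u : ∀ i, Q i → M → Eu (Fin N)}
    (hu : D.A0 True l u) : D.A0 True l fun i y x => rt Jc (θ i (D.pt i y) x) (u i y x) :=
  (hu.us_smul hl (h.comp Real.contDiff_cos)).add
    ((hu.clm hl Jc).us_smul hl (h.comp Real.contDiff_sin))

theorem Ro.rot {N : ℕ} (Jc : En (Fin N)) (h : Ro D θ) (hl : 7 ≤ l) {u : ∀ i, Q i → M → Eu (Fin N)}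
    (hu : D.A0 False l u) : A2 D l fun i y x => rt Jc (θ i (D.pt i y) x) (u i y x) :=
  have h4 : 4 ≤ l := by omega
  ((h.a2 h4 Real.contDiff_cos).smul hl (.of hu)).add
    ((h.a2 h4 Real.contDiff_sin).smul hl (.of (hu.clm h4 Jc)))

theorem nab_rt {N : ℕ} {Jc : En (Fin N)} {e : ι → (x : M) → TangentSpace I x}
    {A : ι → M → En (Fin N)} {φ : M → ℝ} {u : M → Eu (Fin N)} (hφ : Sm I φ) (hu : Sm I u) (a : ι)
    (x : M) (hJ : Jc * A a x = A a x * Jc) : nab I e A a (fun z => rt Jc (φ z) (u z)) x =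
      rt Jc (φ x) (nab I e A a u x) + (dv I (e a) (fun z => Real.cos (φ z)) x • u x +
        dv I (e a) (fun z => Real.sin (φ z)) x • Jc (u x)) := by
  have c : SA I (fun z => Real.cos (φ z)) x := (Real.contDiff_cos.contMDiff.comp hφ) x
  have s : SA I (fun z => Real.sin (φ z)) x := (Real.contDiff_sin.contMDiff.comp hφ) x
  have j : SA I (fun z => Jc (u z)) x := (Jc.contDiff.contMDiff.comp hu) x
  have n : nab I e A a (fun z => Jc (u z)) x = Jc (nab I e A a u x) := by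
    rw [nab, nab, Mp86.dv_clm Jc ((hu x).mdifferentiableAt (by simp)), map_add]
    exact congrArg _ (congrArg (fun S : En (Fin N) => S (u x)) hJ).symm
  simp only [rt]
  rw [nab_add a (c.smul (hu x)) (s.smul j), nab_smul a c (hu x), nab_smul a s j, n]
  abel

end ang

variable {D : Dm I M (Option κ) X Q} {μ : MF M (Option κ) lam J} {r n : ℕ} {c : CF D μ r}
  {B : J → Base M (Option κ) lam} {a : ∀ i, Q i → Option κ → M → En lam}
  {K : ∀ i y, Nk DY (B i) ⟨c.F i y, a i y⟩} {j : ℕ} {N : ND Y lam}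

variable (c) in
/-- the configurations with another spinor -/
abbrev cP (Ψ : ∀ i, Q i → M → μ.V) (i : J) (y : Q i) : Cfg M (Option κ) lam r :=
  ⟨μ.m i, c.W i y, Ψ i y, c.z i y⟩

variable (h : NH K N.δ j) {ε : Prop} (o : c.OK ε j) (hy : ∀ i, Sm I3 (N.y i))
  {Ψ : ∀ i, Q i → M → μ.V}
include o

theorem swP (hΨ : A2 D j Ψ) {w : ∀ i, Q i → SW M} (hw : Fa (c.LtY j) w) :
    A2 D j (V := μ.V) fun i y => (cP c Ψ i y).sw (c.F i y) (w i y) :=
  (wdV o hw hΨ).congr fun i y x => by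
    rw [show (c.c i y).lt (c.F i y) = (cP c Ψ i y).lt (c.F i y) from
      funext fun t => by cases t <;> rfl]
    rfl

theorem awP {w : ∀ i, Q i → List (La M)} (hw : Fa (D.LaY j) w) {s : ∀ i, Q i → M → μ.A}
    (hs : A2 D j s) :
    A2 D j (V := μ.A) fun i y => Wrd81.wd ((cP c Ψ i y).la (c.F i y)) (s i y) (w i y) :=
  (wdA o hw hs).congr fun i y x => by
    rw [show (c.c i y).la (c.F i y) = (cP c Ψ i y).la (c.F i y) from
      funext fun t => by cases t <;> rfl]

include h hy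

/-- the energy of the rotated configurations is pure -/
theorem ew_rot {l : ℕ} (hl : l + 1 = j) {θ : ∀ i, X i → M → ℝ} (hθ : Ro D θ)
    (hJ : ∀ i y e x, μ.Jc * c.W i y e x = c.W i y e x * μ.Jc)
    (hA : D.A0 True l (V := Fm (Option κ) μ.A)
      fun i y x => (K i y).χ4 x • xA (c.F i y) (c.c i y) (K i y).τ x)
    (hP : D.A0 True l (V := μ.V)
      fun i y x => (K i y).χ4 x • xP (c.F i y) (c.c i y) (K i y).τ x) :
    D.A0 True l fun i y =>
      N.ew (K i y) (cP c (fun i y x => rt μ.Jc (θ i (D.pt i y) x) (c.Φ i y x)) i y) := by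
  have h7 := NH.l7 o hl
  have h4 : 4 ≤ l := by omega
  have φ := o.Φ.aff.lower h4 (hl ▸ l.le_succ)
  have p : D.A0 True l (V := μ.V) fun i y x => (K i y).χ4 x • nt (c.F i y) (c.W i y) (K i y).τ
      (fun x => rt μ.Jc (θ i (D.pt i y) x) (c.Φ i y x)) x := by
    refine ((rt_pure μ.Jc hθ.us h4 hP).add ((A0.smul (Lev.self h7) h4 (h.χ4 o hl)
      (A0.fsum Finset.univ fun e _ => (A0.smul (Lev.self h7) h4
        ((h.dτ e).lower h4 (hl ▸ l.le_succ))
        (((A0.smul (Lev.self h7) h4 (hθ.dG h4 Real.contDiff_cos o.F e) φ).add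
          (A0.smul (Lev.self h7) h4 (hθ.dG h4 Real.contDiff_sin o.F e) (φ.clm h4 μ.Jc))).imp
            Or.inl)).imp Or.inr)).imp Or.inr)).congr fun i y x => ?_
    simp only [nt, xP, fun e => nab_rt (e := (c.F i y).e) (hθ.us.sz.sm i y) (φ.sz.sm i y) e x
      (hJ i y e x), smul_add, Finset.sum_add_distrib]
    congr 1
    simp only [rt, map_smul, map_sum, smul_add, Finset.sum_add_distrib, Finset.smul_sum,
      smul_comm (Real.cos _), smul_comm (Real.sin _)]
  exact ((h.χ4 o hl).mul h7 ((A0.fsum Finset.univ fun k _ => (h.uA o hl hA (hy k)).sq h7).add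
    (p.sq h7))).imp Or.inr

variable (he : D.A0 True 4 fun i y => N.ew (K i y) (cP c Ψ i y))
include he

omit h o hy he in
theorem ew0 (i : J) (y : Q i) : ∀ x ∉ (K i y).dp 1, N.ew (K i y) (cP c Ψ i y) x = 0 :=
  fun _ hx => mul_eq_zero_of_left (ct_zero fun e => hx (Dp_mono (by norm_num) e)) _

theorem tc {C : YTC} (hC : ContDiff ℝ ∞ C.k) :
    D.A0 False j fun i y x => (K i y).cut 1 ((K i y).tm x) *
      (N.tc (K i y) C).val (c.F i y) (K i y).τ N.δ (cP c Ψ i y) ((K i y).τ x) :=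
  h.fwin o (hC.comp (contDiff_pi.2 fun i => contDiff_nr.comp (contDiff_apply ℝ ℝ i))) C.s
    (fun _ => he.aff) (fun _ => ew0) le_rfl

theorem tl {u : List (YL Y ⊕ YTC)} (hu : tlOK I3 u) : Fa (c.LtY j) fun i y =>
    (u.map (N.tl (K i y))).map (Dgr80.tl (c.F i y) (K i y).τ N.δ (cP c Ψ i y)) := by
  simp only [List.map_map]
  refine .list fun t ht => ?_
  have := hu t ht
  rcases t with t | C
  · exact h.lt o this
  · exact .mul (tc h o hy he this.1)

theorem ta {u : List (La Y ⊕ YTC)} (hu : taOK I3 u) : Fa (D.LaY j) fun i y =>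
    (u.map (N.ta (K i y))).map (Dgr80.ta (c.F i y) (K i y).τ N.δ (cP c Ψ i y)) := by
  simp only [List.map_map]
  refine .list fun t ht => ?_
  have := hu t ht
  rcases t with t | C
  · exact h.la o this
  · exact .mul (tc h o hy he this.1)

theorem oc {T : YT Y} (hT : T.OK I3) : D.A0 True j fun i y => N.oc (K i y) T (cP c Ψ i y) := by
  have := o.hj
  have hk : ContDiff ℝ ∞ T.C.k := by cases T <;> exact hT.1.1
  have h0 := contDiff_apply (n := ∞) (E := ℝ) ℝ (0 : Fin (T.C.m + 1))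
  have h1 := h.fwin o (((contDiff_iq.comp h0).mul (contDiff_iq.comp (contDiff_nr.comp h0))).mul
    (hk.comp (contDiff_pi.2 fun i => contDiff_nr.comp (contDiff_apply ℝ ℝ i.succ)))) T.C.out.s
    (fun _ => he.aff) (fun _ => ew0) (d := 3) (by norm_num)
  obtain ⟨θ, h2, h3⟩ := h.win
  refine (((h3 0 _ _ he ew0).mul o.h7 h1).imp Or.inl).congr fun i y x => ?_
  rw [ND.oc, (K i y).cut_τ (by norm_num)]
  by_cases e : x ∈ (K i y).dp 1
  · simp only [h2 i y x e, TC.val, ND.tc, YTC.out, comp_apply, Fin.cons_zero, div_eq_mul_inv]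
    ring
  · rw [show (K i y).cut 3 ((K i y).tm x) = 0 from ct_zero fun e' => e (Dp_mono (by norm_num) e')]
    simp

variable (hΨ : A2 D j Ψ) {T : YT Y} (hT : T.OK I3)
include hΨ hT

theorem q2D (hB : UB D.P (μ.pm B)) :
    D.A0 True j (V := μ.V) fun i y => (N.q2 (n := n) (K i y) T).D (cP c Ψ i y) := by
  refine A2.nrm o.hj (oc h o hy he hT) ?_
  cases T with
  | lin C u => exact (swP o hΨ (tl h o hy he hT.2)).app o.h4 hB
  | _ => exact .of (ε := False) A0.zero

theorem q2C (hB : UB D.P (μ.p2 B)) : D.A0 True j (V := Fm (Option κ × Option κ) μ.A)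
    fun i y => (N.q2 (n := n) (K i y) T).C (cP c Ψ i y) := by
  refine A2.nrm o.hj (oc h o hy he hT) ?_
  cases T with
  | lin C u => exact .of (ε := False) A0.zero
  | ad C g u v l =>
    obtain ⟨-, h1, h2, h3, h4⟩ := hT
    exact (wedge o h.dτ (h.cdx o h1) (awP o (ta h o hy he h4)
      (qA o (swP o hΨ (tl h o hy he h2)) (swP o hΨ (tl h o hy he h3))))).app o.h4 hB
  | cv C g f g1 g2 l =>
    obtain ⟨-, h1, h2, h3, h4, h5⟩ := hT
    exact (wedge o h.dτ (h.cdx o h1) (awP o (ta h o hy he h5)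
      (.of (o.cvY (h.ex o h2) (h.cd o h3) (h.cd o h4))))).app o.h4 hB

end Crest.Agent.X212.Smt39
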