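import Crest.Agent.X212.Smt39.Tw

/-! # Row 212, MS-AFT (helper39): windows commute with the twist up to pure families -/

set_option autoImplicit false
set_option linter.unusedSectionVars false
set_option maxSynthPendingDepth 3
noncomputable section
open scoped Manifold ContDiff Topology InnerProductSpace
open MeasureTheory Set Function Filter Real

namespace Crest.Agent.X212.Smt39
open An Sob92 Prm93 Wz78 Dgr80 Mon62 Mon62.Dm Gla92
open Ell97 (UB)
open Nk89 (wm)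

variable {E : Type} [NormedAddCommGroup E] [NormedSpace ℝ E] [FiniteDimensional ℝ E]
  [MeasurableSpace E] [BorelSpace E]
  {HM : Type} [TopologicalSpace HM] {I : ModelWithCorners ℝ E HM} [I.Boundaryless]
  {M : Type} [TopologicalSpace M] [ChartedSpace HM M] [IsManifold I ∞ M] [MeasurableSpace M]
  [T2Space M] [BorelSpace M] [SecondCountableTopology M] {ι : Type} [Fintype ι]

section one
variable {ν : Measure M} {τ ψ g θ : M → ℝ} {δ η A C c c₀ c₁ σ : ℝ}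

/-- windows of functions supported on one side decay on the other side -/
theorem wn_side (h : VG ν τ η A) (hδ : 0 < δ) (hη : η ≤ δ) (hσ : |σ| = 1)
    (hc : ∀ x, ‖g x‖ ≤ c) (h0 : ∀ z, g z ≠ 0 → c₀ ≤ σ * τ z) (t : ℝ) :
    wn ν τ δ (fun x => ‖g x‖) t ≤ δ * |c| * exp ((δ - η) * (σ * t - c₀)) * A := by
  have h1 : ∀ x, ‖b δ (τ x - t) * ‖g x‖‖ ≤
      δ * |c| * exp ((δ - η) * (σ * t - c₀)) * exp (-(η * |τ x - t|)) := fun x => by
    by_cases e : g x = 0
    · rw [e, norm_zero, mul_zero, norm_zero]; positivity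
    rw [Real.norm_of_nonneg (mul_nonneg (b_pos hδ _).le (norm_nonneg _)), mul_assoc, ← exp_add,
      mul_right_comm]
    refine mul_le_mul ((b_le_exp hδ _).trans (mul_le_mul_of_nonneg_left (exp_le_exp.2 ?_) hδ.le))
      ((hc x).trans (le_abs_self c)) (norm_nonneg _) (by positivity)
    have h2 : σ * (τ x - t) ≤ |τ x - t| := (le_abs_self _).trans_eq (by rw [abs_mul, hσ, one_mul])
    nlinarith [h0 x e, sub_nonneg.2 hη]
  refine (Real.le_norm_self _).trans ((norm_integral_le_of_norm_le ((h t).1.const_mul _)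
    (.of_forall h1)).trans ?_)
  rw [integral_const_mul]
  exact mul_le_mul_of_nonneg_left (h t).2 (by positivity)

theorem fl_side {F : Pre I M ι} (hτ : Sm I τ) (dτ : ∀ a, F.Cb (F.D a τ)) (hψ : Continuous ψ)
    (hμ : F.μ = wm ν ψ) (hV : ∀ η > 0, ∃ A, VG ν τ η A) (h0 : 0 < η) (hη : η ≤ δ)
    (hs : ∀ x, ψ x ≤ C + (δ - η) * |τ x|) (hσ : |σ| = 1) (hθ : F.Cb θ)
    (h1 : ∀ x, θ x ≠ 0 → σ * τ x ≤ c₁) (hg : Continuous g) (hc : ∀ x, ‖g x‖ ≤ c)
    (h2 : ∀ z, g z ≠ 0 → c₀ ≤ σ * τ z) (s : ℝ) (k : ℕ) :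
    FL F k fun x => θ x * wn ν τ δ g (τ x + s) := by
  have hδ := h0.trans_le hη
  obtain ⟨A, hA⟩ := hV (η / 2) (half_pos h0)
  obtain ⟨A', hA'⟩ := hV η h0
  have e2 : η / 2 ≤ δ := by linarith
  have w := (hA.wi hδ e2 hτ.continuous hg hc).1
  have sm : ∀ m, ContDiff ℝ ∞ fun t => wnd ν τ δ m g (t + s) := fun m =>
    (w.contDiff_wnd hδ m).comp (contDiff_id.add contDiff_const)
  have cl : IsClosed {x | σ * τ x ≤ c₁} := isClosed_le (continuous_const.mul hτ.continuous)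
    continuous_const
  obtain ⟨K, hK⟩ := n2_time (F := fun _ : Unit => F) (τ := fun _ => τ) (S := fun _ => _)
    (fun _ => hτ) (fun a => ub_of_finite fun _ => dτ a) (fun _ => cl.measurableSet)
    (fun m => ∫ x in {x | σ * τ x ≤ c₁}, ‖wnd ν τ δ m g (τ x + s)‖ ^ 2 ∂F.μ) k 0 (fun _ => θ)
    (ub_of_finite fun _ => hθ) fun _ => closure_minimal h1 cl
  have := hK () (fun m t => wnd ν τ δ m g (t + s)) 1 zero_le_one sm
    (fun m => funext fun t => ((w.hasDerivAt_wnd hδ m (t + s)).comp_add_const t s).deriv)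
    fun m => ⟨?_, (mul_one _).ge⟩
  · simpa only [wnd_zero] using this.1
  have cm := (sm m).continuous.comp hτ.continuous
  refine (memLp_two_iff_integrable_sq_norm cm.aestronglyMeasurable).2 ?_
  rw [hμ, wm, restrict_withDensity cl.measurableSet, integrable_withDensity_iff_integrable_smul'
    (Nk89.meas_w hψ) (.of_forall fun _ => ENNReal.ofReal_lt_top)]
  set R := cb δ m * (δ * |c| * A)
  refine (((hA' 0).1.const_mul (R ^ 2 * exp (2 * C + 2 * (δ - η / 2) *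
    (σ * s - c₀ + 2 * |c₁|)))).restrict).mono' (Continuous.aestronglyMeasurable (by
      simp only [ENNReal.toReal_ofReal (exp_pos _).le]; fun_prop)) ?_
  filter_upwards [ae_restrict_mem cl.measurableSet] with x hx
  have h3 := (w.norm_wnd_le hδ m (τ x + s)).trans (mul_le_mul_of_nonneg_left
    (wn_side hA hδ e2 hσ hc h2 (τ x + s)) (cb_nonneg δ m))
  rw [mul_right_comm, ← mul_assoc] at h3
  have h4 := pow_le_pow_left₀ (norm_nonneg _) h3 2
  rw [ENNReal.toReal_ofReal (exp_pos _).le, smul_eq_mul, Real.norm_of_nonneg (by positivity)]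
  refine (mul_le_mul_of_nonneg_left h4 (exp_pos _).le).trans ?_
  rw [mul_pow, ← exp_nat_mul, mul_left_comm, ← exp_add, mul_assoc (R ^ 2), ← exp_add]
  refine mul_le_mul_of_nonneg_left (exp_le_exp.2 ?_) (sq_nonneg _)
  have h5 : σ * τ x ≤ 2 * |c₁| - |τ x| := by
    have a : |σ * τ x| = |τ x| := by rw [abs_mul, hσ, one_mul]
    have b : σ * τ x ≤ c₁ := hx
    have := le_abs_self c₁
    have := abs_nonneg c₁
    rcases abs_cases (σ * τ x) with e | e <;> linarith [e.1, e.2]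
  have h6 := mul_le_mul_of_nonneg_left h5 (sub_nonneg.2 e2)
  have := hs x
  simp only [sub_zero, Nat.cast_ofNat]
  nlinarith

end one

variable {J : Type} {X Q : J → Type} [∀ i, NormedAddCommGroup (X i)] [∀ i, NormedSpace ℝ (X i)]
  {D : Dm I M ι X Q}

variable (D) in
/-- windows on cylinders -/
structure WZ (δ : ℝ) (ν : J → Measure M) (τ : J → M → ℝ) : Prop where
  we : D.WE δ ν τ fun _ => univ
  vg : ∀ i, ∀ η > 0, ∃ A, VG (ν i) (τ i) η A
  wt : ∀ i, ∃ (ψ : M → ℝ) (η C : ℝ), Continuous ψ ∧ (D.P i).μ = wm (ν i) ψ ∧ 0 < η ∧ η ≤ δ ∧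
    ∀ x, ψ x ≤ C + (δ - η) * |τ i x|

variable (D) in
/-- angles which are `0` for small times and a parameter for large times -/
structure Rw (θ : ∀ i, X i → M → ℝ) (τ : J → M → ℝ) : Prop where
  us : D.US θ
  ex : ∃ (ζ χ : J → M → ℝ) (t : ∀ i, X i → ℝ) (c₀ c₁ : ℝ),
    (∀ l, 4 ≤ l → D.A0 True l fun i _ => ζ i) ∧ UB D.P χ ∧ UC D.toRg t ∧
    (∀ i v x, ζ i x ≠ 1 → (θ i v =ᶠ[𝓝 x] fun _ => χ i x * t i v) ∧ (χ i x = 0 ∨ χ i x = 1)) ∧
    ∀ i x, (χ i x ≠ 0 → c₀ ≤ τ i x) ∧ (χ i x ≠ 1 → τ i x ≤ c₁)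

variable {δ : ℝ} {ν : J → Measure M} {τ : J → M → ℝ} {θ : ∀ i, X i → M → ℝ} {l j : ℕ} {ε : Prop}
  {w : ∀ i, Q i → M → ℝ}

theorem Rw.ro (h : Rw D θ τ) : Ro D θ :=
  let ⟨ζ, χ, t, _, _, a, b, c, d, _⟩ := h.ex; ⟨h.us, ζ, χ, t, a, b, c, d⟩

theorem WZ.a0 (h : WZ D δ ν τ) (s : ℝ) (hl : 4 ≤ l) (hj : 4 ≤ j) (hw : D.A0 ε l w) :
    D.A0 ε j fun i y x => wn (ν i) (τ i) δ (w i y) (τ i x + s) :=
  (h.we.a0 (UB.const 1) (fun _ => subset_univ _) s hl hj hw).congr fun _ _ _ => (one_mul _).symm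

theorem WZ.wi (h : WZ D δ ν τ) (hw : D.Sz w) (i : J) (y : Q i) : WI (ν i) (τ i) δ (w i y) :=
  let ⟨_, hA⟩ := h.we.wi; let ⟨_, hC⟩ := hw.cb i y
  (hA i _ _ hC.1.continuous (CB_bound (hC.2 0))).1

variable [Finite J]

theorem WZ.side (h : WZ D δ ν τ) (s : ℝ) (hl : 4 ≤ l) (hj : 4 ≤ j) (hw : D.A0 ε l w)
    {σ c₀ c₁ : ℝ} (hσ : |σ| = 1) {ϑ : J → M → ℝ} (hϑ : UB D.P ϑ)
    (h1 : ∀ i x, ϑ i x ≠ 0 → σ * τ i x ≤ c₁) (h2 : ∀ i y z, w i y z ≠ 0 → c₀ ≤ σ * τ i z) :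
    D.A0 True j fun i y x => ϑ i x * wn (ν i) (τ i) δ (w i y) (τ i x + s) := by
  have a := h.we.a0 hϑ (fun _ => subset_univ _) s hl hj hw
  have e : ∀ i, ∃ v : D.H ℝ j i, D.vl v = fun x =>
      ϑ i x * wn (ν i) (τ i) δ (w i (D.y₀ i)) (τ i x + s) := fun i => by
    obtain ⟨ψ, η, C, p1, p2, p3, p4, p5⟩ := h.wt i
    obtain ⟨_, hC⟩ := hw.sz.cb i (D.y₀ i)
    have sm := a.sz.sm i (D.y₀ i)
    obtain ⟨v, hv⟩ := exists_Is (p := triv M ℝ) (Exh.of_tame (D.tame i)) sm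
      (fl_side (h.we.sm i) (fun e => (h.we.dτ e).cb i) p1 p2 (h.vg i) p3 p4 p5 hσ (hϑ.cb i) (h1 i)
        hC.1.continuous (CB_bound (hC.2 0)) (h2 i _) s j) fun _ => rfl
    exact ⟨v, hv.val_eq (D.sup i) hj sm.continuous⟩
  choose v hv using e
  exact a.pure_of_pt D.y₀ v hv

/-- **Windows commute with functions of the angle up to pure families.** -/
theorem WZ.comm (h : WZ D δ ν τ) (hθ : Rw D θ τ) {g : ℝ → ℝ} (hg : ContDiff ℝ ∞ g) (s : ℝ)
    (hl : 7 ≤ l) (hj : 7 ≤ j) (hw : D.A0 ε l w) : D.A0 True j fun i y x =>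
      wn (ν i) (τ i) δ (fun z => g (θ i (D.pt i y) z) * w i y z) (τ i x + s) -
        g (θ i (D.pt i y) x) * wn (ν i) (τ i) δ (w i y) (τ i x + s) := by
  obtain ⟨ζ, χ, t, c₀, c₁, h1, h2, h3, h4, h5⟩ := hθ.ex
  have l4 : 4 ≤ l := by omega
  have j4 : 4 ≤ j := by omega
  have sc : D.Sc fun i y => g (t i (D.pt i y)) - g 0 :=
    (Sc.comp hg ⟨t, h3, fun _ _ => rfl⟩).add (Sc.const (-g 0))
  have p := fun l hl => pure_cut (l := l) hl
    (f := fun i v x => g (θ i v x) + -((g (t i v) - g 0) • χ i x + g 0))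
    (us_add (hθ.us.comp hg) ((us_add (us_smul ((us_par h3).comp (hg.sub contDiff_const))
      (US.fixed h2)) (US.fixed (UB.const (g 0)))).clm (-ContinuousLinearMap.id ℝ ℝ))) (h1 l hl)
    fun i v x e => by
      obtain ⟨a, b⟩ := h4 i v x e
      rw [a.eq_of_nhds]
      rcases b with b | b <;> simp [b]
  have h6 : UB D.P fun i x => 1 - χ i x := ub_of_finite fun i => Cb_sub (Cb_const 1) (h2.cb i)
  have w1 := ((p l l4).mul hl hw).imp (ε' := True) Or.inl
  have w2 := (A0.fixed h2).mul hl hw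
  have w3 := (A0.fixed h6).mul hl hw
  have a1 := h.a0 s l4 j4 w1
  have a2 := ((p j j4).mul hj (h.a0 s l4 j4 hw)).imp (ε' := True) Or.inl
  have a3 := h.side s l4 j4 w2 (σ := 1) (c₀ := c₀) (c₁ := c₁) abs_one h6
    (fun i x e => (one_mul _).trans_le ((h5 i x).2 fun k => e (by rw [k, sub_self])))
    fun i y z e => ((h5 i z).1 (left_ne_zero_of_mul e)).trans_eq (one_mul _).symm
  have a4 := h.side s l4 j4 w3 (σ := -1) (c₀ := -c₁) (c₁ := -c₀) (by simp) h2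
    (fun i x e => by linarith [(h5 i x).1 e]) fun i y z e => by
      linarith [(h5 i z).2 fun k => left_ne_zero_of_mul e (by rw [k, sub_self])]
  refine ((a1.sub j4 a2).add ((a3.sub j4 a4).smulc sc)).congr fun i y x => ?_
  have i1 := (h.wi w1.sz i y).int h.we.δ0 (τ i x + s)
  have i2 := (h.wi w2.sz i y).int h.we.δ0 (τ i x + s)
  have i3 := (h.wi hw.sz i y).int h.we.δ0 (τ i x + s)
  have e1 : wn (ν i) (τ i) δ (fun z => (1 - χ i z) * w i y z) (τ i x + s) =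
      wn (ν i) (τ i) δ (w i y) (τ i x + s) - wn (ν i) (τ i) δ (fun z => χ i z * w i y z) (τ i x + s) := by
    rw [wn, wn, wn, ← integral_sub i3 i2]
    exact congrArg _ (funext fun z => by simp only [smul_eq_mul]; ring)
  have e2 : wn (ν i) (τ i) δ (fun z => g (θ i (D.pt i y) z) * w i y z) (τ i x + s) =
      wn (ν i) (τ i) δ (fun z => (g (θ i (D.pt i y) z) + -((g (t i (D.pt i y)) - g 0) • χ i z + g 0)) *
        w i y z) (τ i x + s) + ((g (t i (D.pt i y)) - g 0) *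
        wn (ν i) (τ i) δ (fun z => χ i z * w i y z) (τ i x + s) +
          g 0 * wn (ν i) (τ i) δ (w i y) (τ i x + s)) := by
    rw [wn, wn, wn, wn, ← integral_const_mul, ← integral_const_mul,
      ← integral_add (i2.const_mul _) (i3.const_mul _)]
    refine Eq.trans ?_ (integral_add i1 ((i2.const_mul _).add (i3.const_mul _)))
    exact congrArg _ (funext fun z => by simp only [smul_eq_mul]; ring)
  rw [e2, e1]
  simp only [smul_eq_mul]
  ring

end Crest.Agent.X212.Smt39
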