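import Crest.Agent.X212.Smt39.Win
import Crest.Agent.X212.Smt39.Main

/-! # Row 212, MS-AFT (helper39): windows and the twist on the cylinder -/

set_option autoImplicit false
set_option linter.unusedSectionVars false
set_option maxSynthPendingDepth 3
noncomputable section
open scoped Manifold ContDiff Topology InnerProductSpace
open MeasureTheory Set Function Filter

namespace Crest.Agent.X212.Smt39
open An Sob92 Prm93 Wz78 Mod61 Nd18 Mon62 Mon62.Dm Gla92 Msi61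
open Nk89 (famZ endsZ hc ab)

variable {κ lam : Type} [Fintype κ] [Fintype lam] {Y : M.Mf 3} [CompactSpace Y.M]
  {D : YD Y.I Y.M κ lam} {δ δ' : ℝ} {O' : Set (Y.M × ℝ)} {o : Ref (famZ ℝ D δ O')}
  {h : (famZ ℝ D δ O').OK} {r k : ℕ} {hk : 3 ≤ k}

theorem rw_ang (y₀ : Pnt o r) : Rw (dm h hk y₀) (fun _ v => ang v.2.2.2) fun _ => D.nk.τ := by
  have c : (famZ ℝ D δ O').F0.Cb fun z => hc 1 0 z.2 := Nk89.cb_hcZ (.inl rfl) 0
  obtain ⟨ζ, z1, z2, -, -, z3⟩ := Met55.exists_cut (I := Cyf70.IC Y.I)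
    ((isCompact_univ (X := Y.M)).prod (isCompact_Icc (a := (0 : ℝ)) (b := 1))) isOpen_univ
    (subset_univ _)
  refine ⟨(ro_ang y₀).us, fun _ => ζ, fun _ z => hc 1 0 z.2, fun _ v => v.2.2.2, 0, 1,
    fun l hl => A0.of_cs hl (fun _ => z1) fun _ => z2, ub_of_finite fun _ => c,
    uc_dm (by fun_prop), fun _ v x hx => ?_, fun _ x => ?_⟩
  · have e : x.2 < 0 ∨ 1 < x.2 := by
      by_contra n
      exact hx (z3 x ⟨trivial, not_lt.1 fun a => n (.inl a),
        not_lt.1 fun a => n (.inr a)⟩).self_of_nhds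
    rcases e with e | e
    · have a : ∀ s < (0 : ℝ), hc 1 0 s = 0 := fun s hs => Nk89.hc_zero (by linarith)
      refine ⟨?_, .inl (a _ e)⟩
      filter_upwards [continuous_snd.continuousAt.eventually_lt_const e] with z hz
      rw [ang, a _ hz, a _ e, mul_comm]
    · have a : ∀ s > (1 : ℝ), hc 1 0 s = 1 := fun s hs => Nk89.hc_one (by linarith)
      refine ⟨?_, .inr (a _ e)⟩
      filter_upwards [continuous_snd.continuousAt.eventually_const_lt e] with z hz
      rw [ang, a _ hz, a _ e, mul_comm]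
  · rw [Nka63.nk_τ]
    exact ⟨fun e => not_lt.1 fun n => e (Nk89.hc_zero (by linarith)),
      fun e => not_lt.1 fun n => e (Nk89.hc_one (by linarith))⟩

theorem wz_Z (h0 : 0 ≤ δ) (hδ : δ < δ') (y₀ : Pnt o r) :
    WZ (dm h hk y₀) δ' (fun _ => D.Z.μ) fun _ => D.nk.τ := by
  have f := fx_Z (D := D) (O' := O') (T := ℝ) (O := univ) h0 hδ
  have w := f.wt
  have v : ∀ η > 0, ∃ A, VG D.Z.μ D.nk.τ η A := fun η hη => by
    have := vg_nk D.nk hη
    rw [Nka63.nk_dp, Measure.restrict_univ] at this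
    exact ⟨_, this⟩
  have s : ∀ x z : Y.M × ℝ, δ * ab x.2 - δ * ab z.2 ≤ δ + (δ' - (δ' - δ)) * |x.2 - z.2| :=
    fun x z => by
      have := mul_le_mul_of_nonneg_left (ab_sub x.2 z.2) h0
      linarith
  obtain ⟨A, hA⟩ := v (δ' - δ) (sub_pos.2 hδ)
  have u : ∀ a, (famZ ℝ D δ O').F0.Cb (D.Z.D a D.nk.τ) := fun a =>
    let ⟨_, hC⟩ := cbs_Dτ D; w.Cb.2 ⟨_, hC D.nk a⟩
  refine ⟨⟨h0.trans_lt hδ, fun _ => D.nk.sm_τ, fun a => ub_of_finite fun _ => u a,
    fun _ => .univ, fun _ => sfinite_μ D.Z.toPre, fun _ => .of_forall fun _ => trivial,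
    fun _ x => δ * ab x.2, δ' - δ, δ, A, sub_le_self _ h0, fun _ => ⟨w.sm.continuous,
      Measure.restrict_univ.trans w.μ, hA, fun x _ z _ => ?_⟩⟩, fun _ => v,
    fun _ => ⟨fun x => δ * ab x.2, δ' - δ, δ + δ * ab 0, w.sm.continuous, w.μ, sub_pos.2 hδ,
      sub_le_self _ h0, fun x => ?_⟩⟩
  · rw [Nka63.nk_τ]; exact s x z
  · have := s x (x.1, 0)
    rw [Nka63.nk_τ]
    simp only [sub_zero] at this
    linarith

end Crest.Agent.X212.Smt39
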